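import Vale.Agent.P027.H833.D.Mach
import Vale.Agent.Lib.PolyTime.Official

/-! From checkers in `FP` (on pairs) to verifiers (programs with the certificate on stack 1). -/

set_option linter.all false

namespace Vale.Agent.P027.N.D.V

open Vale.Agent.Lib.PolyTime Function

variable {A : Set Word}

/-- move bits from stack 1 to stack 3, as many as there are bits on stack 2 -/
def takeLoop : Prog :=
  .loop 2 (.seq (.pop 2) (.ite 1 .skip (.seq (.push 3 false) (.pop 1))
    (.seq (.push 3 true) (.pop 1))))

theorem Runs_takeLoop {s : ℕ → Word} :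
    Runs A takeLoop s (5 * (s 2).length + 1)
      (update (update (update s 2 []) 1 ((s 1).drop (s 2).length)) 3
        (((s 1).take (s 2).length).reverse ++ s 3)) := by
  generalize hw : s 2 = w
  induction w generalizing s with
  | nil =>
    refine (Runs.loop_stop hw).congr ?_
    funext i
    rcases eq_or_ne i 3 with rfl | h3
    · simp
    · rw [update_of_ne h3]
      rcases eq_or_ne i 1 with rfl | h1
      · simp
      · rw [update_of_ne h1]
        rcases eq_or_ne i 2 with rfl | h2
        · simp [hw]
        · rw [update_of_ne h2]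
  | cons c w ih =>
    have h0 : Runs A (Prog.pop 2) s 1 (update s 2 w) := by
      have := Runs.pop (A := A) (s := s) 2
      rwa [hw, List.tail_cons] at this
    have hb : ∃ s1, Runs A (.ite 1 .skip (.seq (.push 3 false) (.pop 1))
        (.seq (.push 3 true) (.pop 1))) (update s 2 w) 3 s1 ∧
        s1 = update (update (update s 2 w) 1 (s 1).tail) 3 (((s 1).take 1).reverse ++ s 3) := by
      refine ⟨_, ?_, rfl⟩
      cases hr : s 1 with
      | nil =>
        refine ((Runs.ite_nil (by simpa using hr) Runs.skip).congr ?_).mono (by norm_num)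
        funext i
        rcases eq_or_ne i 3 with rfl | h3
        · simp
        · rw [update_of_ne h3]
          rcases eq_or_ne i 1 with rfl | h1
          · simp [hr]
          · rw [update_of_ne h1]
      | cons b r =>
        have h1 : Runs A (.seq (.push 3 b) (.pop 1)) (update s 2 w) 2
            (update (update (update s 2 w) 1 r) 3 ([b] ++ s 3)) := by
          have h2 := (Runs.push (A := A) (s := update s 2 w) 3 b).seq (Runs.pop 1)
          refine h2.congr ?_
          funext i
          rcases eq_or_ne i 3 with rfl | h3
          · simp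
          · rcases eq_or_ne i 1 with rfl | h1
            · simp [hr]
            · simp [update_of_ne h3, update_of_ne h1]
        cases b with
        | false => exact Runs.ite_false (by simp [hr]) h1
        | true => exact Runs.ite_true (by simp [hr]) h1
    obtain ⟨s1, hb, hs1⟩ := hb
    have h2 := ih (s := s1) (by simp [hs1])
    have e : update (update (update s1 2 []) 1 ((s1 1).drop w.length)) 3
        (((s1 1).take w.length).reverse ++ s1 3) =
        update (update (update s 2 []) 1 ((s 1).drop (c :: w).length)) 3
        (((s 1).take (c :: w).length).reverse ++ s 3) := by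
      have e1 : s1 1 = (s 1).tail := by simp [hs1]
      have e3 : s1 3 = ((s 1).take 1).reverse ++ s 3 := by simp [hs1]
      funext i
      rcases eq_or_ne i 3 with rfl | h3
      · rw [update_self, update_self, e1, e3]
        cases s 1 with
        | nil => simp
        | cons b r => simp
      · rw [update_of_ne h3, update_of_ne h3]
        rcases eq_or_ne i 1 with rfl | h1
        · rw [update_self, update_self, e1]
          cases s 1 with
          | nil => simp
          | cons b r => simp
        · rw [update_of_ne h1, update_of_ne h1]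
          rcases eq_or_ne i 2 with rfl | h2
          · rw [update_self, update_self]
          · rw [update_of_ne h2, update_of_ne h2, hs1, update_of_ne h3, update_of_ne h1,
              update_of_ne h2]
    rw [e] at h2
    refine (Runs.loop_step (by simp [hw]) (h0.seq hb) h2).mono ?_
    simp only [List.length_cons]
    omega

/-- From a checker on pairs to a program that reads the certificate from stack 1. -/
theorem exists_prog {g : Word → Word} (hg : FP A g) (q : Polynomial ℕ) :
    ∃ (p : Prog) (T : Polynomial ℕ), ∀ x r, ∃ s, Runs A p (start x r) (T.eval x.length) s ∧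
      s 0 = g (pr x (r.take (q.eval x.length))) := by
  obtain ⟨u, hu, hu'⟩ := FP.unary (A := A) FP.id q
  obtain ⟨pu, wu, cu, hwu, hlu, hru⟩ := hu.elim
  obtain ⟨pg, wg, cg, hwg, hlg, hrg⟩ := hg.elim
  -- the time bound
  have hPB : PB fun n => pb cu n + (5 * q.eval n + 1) + (4 * q.eval n + 1) + 1 + (4 * n + 1) +
      (5 * n + 1) + pb cg (2 * n + q.eval n + 1) := by
    have h1 : PB fun n => q.eval n := PB.of_polynomial q
    have h2 : PB fun n : ℕ => n := PB.id
    have h3 : PB fun n => pb cg (2 * n + q.eval n + 1) :=
      (PB.pb cg).comp ((((PB.const 2).mul h2).add h1).add (PB.const 1))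
    exact (((((((PB.pb cu).add (((PB.const 5).mul h1).add (PB.const 1))).add
      (((PB.const 4).mul h1).add (PB.const 1))).add (PB.const 1)).add
      (((PB.const 4).mul h2).add (PB.const 1))).add
      (((PB.const 5).mul h2).add (PB.const 1))).add h3)
  obtain ⟨T, hT⟩ := hPB.exists_polynomial
  refine ⟨.seq (pu.rename (rel 0 2 5)) (.seq takeLoop (.seq (.mv 3 4) (.seq (.push 4 false)
    (.seq (.mv 0 5) (.seq (.mvd 5 4) (pg.rename (rel 4 0 5))))))), T, fun x r => ?_⟩
  set n := q.eval x.length with hn
  have hux : (u x).length = n := hu' x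
  -- memory after each step
  set s0 := start x r with hs0
  have e00 : s0 0 = x := by simp [hs0, start]
  have e01 : s0 1 = r := by simp [hs0, start]
  have e0i : ∀ i, 2 ≤ i → s0 i = [] := by
    intro i hi
    simp only [hs0, start]
    rw [if_neg (by omega), if_neg (by omega)]
  have r1 := hru 0 2 5 (by norm_num) (by norm_num) (by norm_num) s0 (e0i 2 (by norm_num))
    (fun i hi _ => e0i i (by omega))
  rw [e00] at r1
  set s1 := update s0 2 (u x) with hs1
  have r2 := Runs_takeLoop (A := A) (s := s1)
  have e12 : (s1 2).length = n := by rw [hs1, update_self, hux]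
  have e11 : s1 1 = r := by rw [hs1, update_of_ne (by norm_num), e01]
  have e13 : s1 3 = [] := by rw [hs1, update_of_ne (by norm_num), e0i 3 (by norm_num)]
  rw [e12, e11, e13, List.append_nil] at r2
  set s2 := update (update (update s1 2 []) 1 (r.drop n)) 3 (r.take n).reverse with hs2
  have r3 := Runs.mv (A := A) (s := s2) (i := 3) (j := 4) (by norm_num)
  have e23 : s2 3 = (r.take n).reverse := by rw [hs2, update_self]
  have e24 : s2 4 = [] := by
    rw [hs2, update_of_ne (by norm_num), update_of_ne (by norm_num), update_of_ne (by norm_num),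
      hs1, update_of_ne (by norm_num), e0i 4 (by norm_num)]
  rw [e23, e24, List.reverse_reverse, List.append_nil] at r3
  set s3 := update (update s2 3 []) 4 (r.take n) with hs3
  have r4 := Runs.push (A := A) (s := s3) 4 false
  have e34 : s3 4 = r.take n := by rw [hs3, update_self]
  rw [e34] at r4
  set s4 := update s3 4 (false :: r.take n) with hs4
  have r5 := Runs.mv (A := A) (s := s4) (i := 0) (j := 5) (by norm_num)
  have e2o : ∀ i, i ≠ 1 → i ≠ 2 → i ≠ 3 → s2 i = s0 i := by
    intro i h1 h2 h3
    rw [hs2, update_of_ne h3, update_of_ne h1, update_of_ne h2, hs1, update_of_ne h2]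
  have e4o : ∀ i, i ≠ 1 → i ≠ 2 → i ≠ 3 → i ≠ 4 → s4 i = s0 i := by
    intro i h1 h2 h3 h4
    rw [hs4, update_of_ne h4, hs3, update_of_ne h4, update_of_ne h3, e2o i h1 h2 h3]
  have e40 : s4 0 = x := by rw [e4o 0 (by norm_num) (by norm_num) (by norm_num) (by norm_num), e00]
  have e45 : s4 5 = [] := by
    rw [e4o 5 (by norm_num) (by norm_num) (by norm_num) (by norm_num), e0i 5 (by norm_num)]
  rw [e40, e45, List.append_nil] at r5
  set s5 := update (update s4 0 []) 5 x.reverse with hs5
  have r6 := Runs.mvd (A := A) (s := s5) (k := 5) (j := 4) (by norm_num)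
  have e55 : s5 5 = x.reverse := by rw [hs5, update_self]
  have e54 : s5 4 = false :: r.take n := by
    rw [hs5, update_of_ne (by norm_num), update_of_ne (by norm_num), hs4, update_self]
  rw [e55, e54, List.reverse_reverse, ← pr_eq] at r6
  set s6 := update (update s5 5 []) 4 (pr x (r.take n)) with hs6
  have e64 : s6 4 = pr x (r.take n) := by rw [hs6, update_self]
  have e60 : s6 0 = [] := by
    rw [hs6, update_of_ne (by norm_num), update_of_ne (by norm_num), hs5,
      update_of_ne (by norm_num), update_self]
  have e6i : ∀ i, 6 ≤ i → s6 i = [] := by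
    intro i hi
    rw [hs6, update_of_ne (by omega), update_of_ne (by omega), hs5, update_of_ne (by omega),
      update_of_ne (by omega), e4o i (by omega) (by omega) (by omega) (by omega), e0i i (by omega)]
  have r7 := hrg 4 0 5 (by norm_num) (by norm_num) (by norm_num) s6 e60
    (fun i hi _ => e6i i (by omega))
  rw [e64] at r7
  refine ⟨update s6 0 (g (pr x (r.take n))), ?_, by rw [update_self]⟩
  refine (r1.seq (r2.seq (r3.seq (r4.seq (r5.seq (r6.seq r7)))))).mono ?_
  refine le_trans ?_ (hT x.length)
  simp only [List.length_reverse, ← hn]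
  have h1 : (r.take n).length ≤ n := by rw [List.length_take]; exact min_le_left _ _
  have h2 : (pr x (r.take n)).length ≤ 2 * x.length + n + 1 := by rw [length_pr]; omega
  have h3 := pb_mono cg h2
  omega

/-- Verifiers from checkers. -/
theorem exists_verif {g : Word → Word} (hg : FP ∅ g) (q : Polynomial ℕ) {L : Set Word}
    (hL : ∀ x, x ∈ L ↔ ∃ r : Word, r.length ≤ q.eval x.length ∧ (g (pr x r)).head? = some true) :
    ∃ (p : Prog) (T : Polynomial ℕ), Verif p T L := by
  obtain ⟨p, T, hp⟩ := exists_prog hg q
  have hacc : ∀ x r, Accepts ∅ p x r ↔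
      (g (pr x (r.take (q.eval x.length)))).head? = some true := by
    intro x r
    obtain ⟨s, ⟨t, ht, he⟩, hs⟩ := hp x r
    constructor
    · rintro ⟨t', s', he', h'⟩
      obtain ⟨-, rfl⟩ := he.det he'
      rwa [hs] at h'
    · intro h
      exact ⟨t, s, he, by rw [hs]; exact h⟩
  refine ⟨p, T + q, fun x r => ?_, fun x r h => ?_, fun x hx => ?_⟩
  · obtain ⟨s, ⟨t, ht, he⟩, hs⟩ := hp x r
    exact ⟨t, s, he, ht.trans (by rw [Polynomial.eval_add]; omega)⟩
  · rw [hacc] at h
    exact (hL x).2 ⟨_, by rw [List.length_take]; exact min_le_left _ _, h⟩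
  · obtain ⟨r, hr, h⟩ := (hL x).1 hx
    refine ⟨r, hr.trans (by rw [Polynomial.eval_add]; omega), ?_⟩
    rw [hacc, List.take_of_length_le hr]
    exact h

end Vale.Agent.P027.N.D.V
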