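import Vale.Agent.P027.H847.D.Comp
import Vale.Agent.P027.H847.D.Ver1
import Vale.Agent.P027.H847.U.Poly
import Vale.Agent.Lib.PolyTime.OfTM2

/-! The diagonal argument, and the statements about algorithms and certificates for Hilbert's tenth
problem over `ℚ`, from the reductions. -/

set_option linter.all false

namespace Vale.Agent.P027.N.D

open Vale.Agent.Lib.PolyTime Function
open Vale.Agent.P027.N.U (Poly toMv codeP)

/-! ### The diagonal argument -/

theorem exists_large (T : Polynomial ℕ) (N₀ : ℕ) : ∃ N ≥ N₀, 2 * T.eval N + 2 ≤ 2 ^ N := by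
  obtain ⟨c, hc⟩ := (((PB.const 2).mul (PB.of_polynomial T)).add (PB.const 2))
  have h1 : Filter.Tendsto (fun n : ℕ => (n : ℝ) ^ c / (2 : ℝ) ^ n) Filter.atTop (nhds 0) :=
    tendsto_pow_const_div_const_pow_of_one_lt c (by norm_num)
  have h2 := (h1.eventually (gt_mem_nhds (show (0 : ℝ) < 1 / 4 by norm_num))).and
    (Filter.eventually_ge_atTop (N₀ + 2))
  obtain ⟨n, hn, hn'⟩ := h2.exists
  refine ⟨n - 2, by omega, (hc (n - 2)).trans ?_⟩
  have h3 : n - 2 + 2 = n := by omega
  rw [h3]
  rw [div_lt_iff₀ (by positivity)] at hn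
  have h4 : (2 : ℝ) ^ n = 2 ^ (n - 2) * 4 := by
    conv_lhs => rw [← h3]
    rw [pow_add]
    norm_num
  rw [h4] at hn
  have h5 : ((n ^ c : ℕ) : ℝ) < ((2 ^ (n - 2) : ℕ) : ℝ) := by
    push_cast
    linarith
  exact (Nat.cast_lt.1 h5).le

/-- The complement of the diagonal language has no verifier. -/
theorem diagLg : ¬ ∃ (p : Prog) (T : Polynomial ℕ), Verif p T Lgᶜ := by
  rintro ⟨p, T, h1, h2, h3⟩
  obtain ⟨N₀, hN₀⟩ := B.stComp p
  obtain ⟨N, hN, hT⟩ := exists_large T N₀
  obtain ⟨w, hw, hacc⟩ := hN₀ N hN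
  have key : ∀ r, AccW w (start w r) (2 ^ w.length - 1) ↔ Accepts ∅ p w r := by
    intro r
    obtain ⟨t, s, he, ht⟩ := h1 w r
    rw [hw] at ht
    rw [hacc _ _ _ _ he (by rw [hw]; omega)]
    constructor
    · intro h
      exact ⟨t, s, he, h⟩
    · rintro ⟨t', s', he', h'⟩
      obtain ⟨-, rfl⟩ := he.det he'
      exact h'
  by_cases hwL : w ∈ Lg
  · have hwL' := hwL
    obtain ⟨r, -, hr⟩ := hwL'
    exact h2 w r ((key r).1 hr) hwL
  · obtain ⟨r, hr, hr'⟩ := h3 w hwL
    refine hwL ⟨r, ?_, (key r).2 hr'⟩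
    rw [hw] at hr ⊢
    omega

/-! ### Statements -/

theorem pairW_eq (x r : List Bool) : pairW x r = pr x r := by
  rw [pr_eq, pairW]
  congr 1
  induction x with
  | nil => rfl
  | cons b x ih => simp [dbl, ih]

theorem polyTime_iff {f : List Bool → List Bool} : PolyTime f ↔ FP ∅ f :=
  (OfTM2.fp_iff_tm2 (f := f)).symm

/-- the test for the word `[true]` -/
theorem fp_test {V : Word → Word} (hV : FP ∅ V) (a b : Bool) :
    FP ∅ (fun z => if V z = [true] then [a] else [b]) := by
  have h1 : FP ∅ (fun z => case3 (V z).tail [a] [b] [b]) :=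
    (FP.tail.comp hV).case3 (FP.const [a]) (FP.const [b]) (FP.const [b])
  refine (hV.case3 (FP.const [b]) (FP.const [b]) h1).congr fun z => ?_
  rcases h : V z with _ | ⟨_ | _, w⟩
  · simp
  · simp
  · rcases w with _ | ⟨_ | _, w⟩ <;> simp

/-- a reduction of the language `L` to the polynomials of degree at most four -/
def Red (L : Set Word) : Prop :=
  ∃ f : Word → Poly, FP ∅ (fun w => codeP (f w)) ∧ (∀ w, (toMv (f w)).totalDegree ≤ 4) ∧
    ∀ w, w ∈ L ↔ HasZero (f w)

/-- certificates for a property of polynomials of degree at most four that can be checked in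
polynomial time -/
def Cert (P : Poly → Prop) : Prop :=
  ∃ (V : List Bool → List Bool) (q : Polynomial ℕ), PolyTime V ∧
    ∀ F : Poly, (toMv F).totalDegree ≤ 4 →
      (P F ↔ ∃ r : List Bool, r.length ≤ q.eval (codeP F).length ∧
        V (pairW (codeP F) r) = [true])

/-- `f` composed with a checker -/
theorem cert_verif {P : Poly → Prop} (hP : Cert P) {f : Word → Poly}
    (hf : FP ∅ (fun w => codeP (f w))) (hd : ∀ w, (toMv (f w)).totalDegree ≤ 4) :
    ∃ (g : Word → Word) (q : Polynomial ℕ), FP ∅ g ∧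
      ∀ w, P (f w) ↔ ∃ r : Word, r.length ≤ q.eval w.length ∧ (g (pr w r)).head? = some true := by
  obtain ⟨V, q, hV, h⟩ := hP
  rw [polyTime_iff] at hV
  obtain ⟨u, hu, hu'⟩ := FP.unary hf q
  obtain ⟨T, hT, hT1, hfT⟩ := hf.length_le
  obtain ⟨q', hq'⟩ := ((PB.of_polynomial q).comp hT).exists_polynomial
  -- the checker: `V (pr (f w) r)`, and the length of `r` is at most `q |f w|`
  have h1 : FP ∅ (fun z : Word => if V (pr (codeP (f (fstW z))) (sndW z)) = [true] then [true]
      else [false]) := by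
    have h2 : FP ∅ (fun z : Word => V (pr (codeP (f (fstW z))) (sndW z))) :=
      hV.comp ((hf.comp FP.fst).pair FP.snd)
    exact fp_test h2 true false
  have h3 : FP ∅ (fun z : Word => (sndW z).drop (u (fstW z)).length) :=
    FP.dropLen (hu.comp FP.fst) FP.snd
  refine ⟨_, q', h3.case3 h1 (FP.const [false]) (FP.const [false]), fun w => ?_⟩
  rw [h (f w) (hd w)]
  constructor
  · rintro ⟨r, hr, hr'⟩
    refine ⟨r, ?_, ?_⟩
    · refine hr.trans ((eval_mono q (hfT w)).trans (hq' _))
    · rw [fstW_pr, sndW_pr, hu', List.drop_eq_nil_of_le hr, case3_nil, ← pairW_eq, if_pos hr']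
      rfl
  · rintro ⟨r, -, hr⟩
    rw [fstW_pr, sndW_pr, hu'] at hr
    by_cases h4 : r.length ≤ q.eval (codeP (f w)).length
    · rw [List.drop_eq_nil_of_le h4, case3_nil, ← pairW_eq] at hr
      refine ⟨r, h4, ?_⟩
      by_contra h5
      rw [if_neg h5] at hr
      simp at hr
    · exfalso
      have h5 : r.drop (q.eval (codeP (f w)).length) ≠ [] := by
        intro h6
        exact h4 (by simpa using h6)
      rcases h6 : r.drop (q.eval (codeP (f w)).length) with _ | ⟨_ | _, l⟩
      · exact h5 h6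
      · rw [h6, case3_false] at hr
        simp at hr
      · rw [h6, case3_true] at hr
        simp at hr

/-- **no certificates for unsolvability** -/
theorem no_coNP (red : Red Lg) : ¬ Cert (fun F => ¬ HasZero F) := by
  intro hC
  obtain ⟨f, hf, hd, hfL⟩ := red
  obtain ⟨g, q, hg, h⟩ := cert_verif hC hf hd
  refine diagLg (Vale.Agent.P027.N.D.V.exists_verif hg q fun w => ?_)
  rw [← h w, ← hfL w]
  rfl

/-- **no algorithm** -/
theorem no_P (red : Red Lg) : ¬ ∃ V : List Bool → List Bool, PolyTime V ∧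
    ∀ F : Poly, (toMv F).totalDegree ≤ 4 → (V (codeP F) = [true] ↔ HasZero F) := by
  rintro ⟨V, hV, h⟩
  rw [polyTime_iff] at hV
  refine no_coNP red ⟨fun z => if V (fstW z) = [true] then [false] else [true], 0,
    polyTime_iff.2 (fp_test (hV.comp FP.fst) false true), fun F hF => ?_⟩
  simp only [pairW_eq, fstW_pr]
  rw [← h F hF]
  constructor
  · intro h2
    exact ⟨[], by simp, by simp [h2]⟩
  · rintro ⟨r, -, h2⟩ h3
    simp [h3] at h2

/-- the reduction of the complements of languages with certificates -/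
def CoRed : Prop := ∀ (g : Word → Word) (q : Polynomial ℕ), FP ∅ g →
  Red {x | ∀ r : Word, r.length ≤ q.eval x.length → (g (pr x r)).head? ≠ some true}

/-- **no certificates for solvability** -/
theorem no_NP (red : Red Lg) (coRed : CoRed) : ¬ Cert HasZero := by
  intro hC
  obtain ⟨f, hf, hd, hfL⟩ := red
  obtain ⟨g, q, hg, h⟩ := cert_verif hC hf hd
  obtain ⟨f', hf', hd', hfL'⟩ := coRed g q hg
  obtain ⟨g', q', hg', h'⟩ := cert_verif hC hf' hd'
  refine diagLg (Vale.Agent.P027.N.D.V.exists_verif hg' q' fun w => ?_)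
  rw [← h' w, ← hfL' w]
  simp only [Set.mem_compl_iff, Set.mem_setOf_eq]
  rw [hfL w, h w]
  push Not
  rfl

end Vale.Agent.P027.N.D
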