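import Vale.Agent.P027.H847.D.NexpV

/-! Complements of languages with short certificates have exponentially long certificates. -/

set_option linter.all false

namespace Vale.Agent.P027.N.D

open Vale.Agent.Lib.PolyTime Function
open Vale.Agent.P027.N.U (Poly toMv codeP)

/-- the word number `j` -/
def wd (j : ℕ) : List Bool := (j + 1).bits.dropLast

theorem val_append_true (r : Word) : val (r ++ [true]) < 2 ^ (r.length + 1) ∧
    0 < val (r ++ [true]) := by
  constructor
  · have h := val_lt (r ++ [true])
    rwa [List.length_append, List.length_singleton] at h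
  · induction r with
    | nil => simp
    | cons b r ih =>
      rw [List.cons_append, val_cons]
      omega

theorem exists_wd (r : Word) : ∃ j, j < 2 ^ (r.length + 1) ∧ wd j = r := by
  obtain ⟨h1, h2⟩ := val_append_true r
  refine ⟨val (r ++ [true]) - 1, by omega, ?_⟩
  rw [wd, show val (r ++ [true]) - 1 + 1 = val (r ++ [true]) by omega, ← nrm_eq_bits]
  have h3 : nrm (r ++ [true]) = r ++ [true] := by
    unfold nrm
    rw [List.reverse_append]
    simp
  rw [h3, List.dropLast_concat]

theorem wd_pt {α : Type} [Enc α] {j : α → ℕ} (hj : PT ∅ j) : PT ∅ (fun a => wd (j a)) :=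
  PT.dropLast (PT.natBits (PT.add hj (PT.const 1)))

/-- running a function in `FP` on a pair of words computed in the typed calculus -/
theorem call_pt {g : Word → Word} (hg : FP ∅ g) {α : Type} [Enc α] {x : α → Raw}
    {r : α → List Bool} (hx : PT ∅ x) (hr : PT ∅ r) :
    PT ∅ (fun a => Raw.mk (g (pr (x a).w (r a)))) := by
  obtain ⟨G, hG, hG'⟩ := hx.pair (PT.rawOfList hr)
  exact ⟨_, hg.comp hG, fun a => by rw [hG']; rfl⟩

theorem hd_eq_true {w : Word} : hd w = true ↔ w.head? = some true := by
  cases w <;> simp [hd]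

theorem coRed (red : Red Lg) : CoRed := by
  intro g q hg
  -- the checker
  have hx : PT ∅ (fun z : Raw × Raw => z.1) := PT.fst'
  have hq : PT ∅ (fun z : Raw × Raw => q.eval z.1.w.length) := (G.poly_pt q).1.comp PT.fst'
  have hqb : PBd (fun z : Raw × Raw => q.eval z.1.w.length) :=
    (G.poly_pt q).2.comp (A := ∅) PT.fst'
  have hR : PT ∅ (fun z : Raw × Raw => z.2.w.length) := PT.rawLength PT.snd'
  have hRb : PBd (fun z : Raw × Raw => z.2.w.length) :=
    ((PT.snd' : PT ∅ (fun z : Raw × Raw => z.2)).pbd).mono fun z => le_rfl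
  have h1 : PT ∅ (fun z : Raw × Raw => decide (2 ^ (q.eval z.1.w.length + 1) ≤ z.2.w.length)) :=
    PT.le (PT.pow (PT.const 2) (PT.add hq (PT.const 1)) (hqb.add (PBd.const 1))) hR
  have h2 : PT ∅ (fun z : (Raw × Raw) × ℕ => hd (g (pr z.1.1.w (wd z.2)))) :=
    PT.rawHd (call_pt hg (hx.comp PT.fst') (wd_pt PT.snd'))
  have h3 : PT ∅ (fun z : (Raw × Raw) × ℕ =>
      !(decide ((wd z.2).length ≤ q.eval z.1.1.w.length) && hd (g (pr z.1.1.w (wd z.2))))) :=
    (PT.le (PT.length (wd_pt PT.snd')) (hq.comp PT.fst')).and h2 |>.not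
  have h4 : PT ∅ (fun z : Raw × Raw => decide (2 ^ (q.eval z.1.w.length + 1) ≤ z.2.w.length) &&
      (List.range z.2.w.length).all fun j =>
        !(decide ((wd j).length ≤ q.eval z.1.w.length) && hd (g (pr z.1.w (wd j))))) :=
    h1.and (PT.all (l := fun z : Raw × Raw => List.range z.2.w.length) (f := fun z j =>
      !(decide ((wd j).length ≤ q.eval z.1.w.length) && hd (g (pr z.1.w (wd j)))))
      (PT.range hR hRb) h3)
  obtain ⟨G, hG, hG'⟩ := h4
  obtain ⟨f, hf, hd', hfL⟩ := red_cert red hG (q + 1)
  refine ⟨f, hf, hd', fun x => ?_⟩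
  rw [← hfL x]
  have hGx : ∀ r, (G (pr x r)).head? = some true ↔ 2 ^ (q.eval x.length + 1) ≤ r.length ∧
      ∀ j < r.length, (wd j).length ≤ q.eval x.length → (g (pr x (wd j))).head? ≠ some true := by
    intro r
    have h5 := hG' (Raw.mk x, Raw.mk r)
    have h6 : G (pr x r) = [decide (2 ^ (q.eval x.length + 1) ≤ r.length) &&
      (List.range r.length).all fun j =>
        !(decide ((wd j).length ≤ q.eval x.length) && hd (g (pr x (wd j))))] := h5
    rw [h6]
    simp only [List.head?_cons, Option.some.injEq, Bool.and_eq_true, decide_eq_true_eq,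
      List.all_eq_true, List.mem_range, Bool.not_eq_true', Bool.and_eq_false_iff,
      decide_eq_false_iff_not]
    refine and_congr_right fun _ => forall₂_congr fun j _ => ?_
    rw [Ne, ← hd_eq_true]
    constructor
    · rintro (h | h) h'
      · exact absurd h' h
      · simp [h]
    · intro h
      by_cases h7 : (wd j).length ≤ q.eval x.length
      · right
        simpa using h h7
      · exact Or.inl h7
  simp only [Set.mem_setOf_eq, hGx]
  constructor
  · intro h
    refine ⟨List.replicate (2 ^ (q.eval x.length + 1)) true, ?_, ?_, fun j _ hj => h _ hj⟩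
    · rw [List.length_replicate, Polynomial.eval_add, Polynomial.eval_one]
    · rw [List.length_replicate]
  · rintro ⟨R, -, hR1, hR2⟩ r hr
    obtain ⟨j, hj, rfl⟩ := exists_wd r
    refine hR2 j (hj.trans_le (le_trans ?_ hR1)) hr
    exact Nat.pow_le_pow_right (by norm_num) (by omega)

end Vale.Agent.P027.N.D
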