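import Vale.Agent.P027.H833.D.Mach
import Vale.Agent.Lib.PolyTime.TM2

/-! Programs are coded by tables: module (b). -/

set_option linter.all false

namespace Vale.Agent.P027.N.D.B

open Vale.Agent.Lib.PolyTime Function

/-- the states of the machine of a program: continuations, accepting, rejecting -/
inductive S : Type
  | run (l : List Prog)
  | acc
  | rej

/-- the instruction of a state: the stack, and for every top the operation and the next state -/
def instr : S → ℕ × (ℕ → ℕ × S)
  | .run [] => (0, fun τ => (0, if τ = 2 then .acc else .rej))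
  | .run (.skip :: ks) => (0, fun _ => (0, .run ks))
  | .run (.push i b :: ks) => (i, fun _ => (if b then 2 else 1, .run ks))
  | .run (.pop i :: ks) => (i, fun _ => (3, .run ks))
  | .run (.query i j :: ks) => (j, fun _ => (1, .run ks))
  | .run (.seq p q :: ks) => (0, fun _ => (0, .run (p :: q :: ks)))
  | .run (.ite i p q r :: ks) =>
    (i, fun τ => (0, if τ = 0 then .run (p :: ks) else if τ = 1 then .run (q :: ks)
      else .run (r :: ks)))
  | .run (.loop i p :: ks) => (i, fun τ => (0, if τ = 0 then .run ks else .run (p :: .loop i p :: ks)))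
  | .acc => (0, fun _ => (0, .acc))
  | .rej => (0, fun _ => (0, .rej))

/-- one step -/
def stp (a : S × (ℕ → Word)) : S × (ℕ → Word) :=
  (((instr a.1).2 (topc (a.2 (instr a.1).1))).2,
    update a.2 (instr a.1).1 (opr ((instr a.1).2 (topc (a.2 (instr a.1).1))).1
      (a.2 (instr a.1).1)))

theorem opr_zero (s : Word) : opr 0 s = s := rfl

theorem topc_lt (s : Word) : topc s < 3 := by
  rcases s with _ | ⟨_ | _, s⟩ <;> simp [topc]

theorem instr_op_lt (q : S) (τ : ℕ) : ((instr q).2 τ).1 < 4 := by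
  rcases q with (_ | ⟨p, ks⟩) | _ | _
  · simp [instr]
  · cases p <;> simp [instr]
    split_ifs <;> norm_num
  · simp [instr]
  · simp [instr]

theorem topc_eq_two (s : Word) : topc s = 2 ↔ s.head? = some true := by
  rcases s with _ | ⟨_ | _, s⟩ <;> simp [topc]

/-- simulation of a program by the machine -/
theorem sim {p : Prog} {s s' : ℕ → Word} {t : ℕ} (h : Eval ∅ p s t s') (ks : List Prog) :
    ∃ n, n + 1 ≤ 2 * t ∧ stp^[n] (.run (p :: ks), s) = (.run ks, s') := by
  induction h generalizing ks with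
  | skip s => exact ⟨1, by norm_num, by simp [stp, instr, opr_zero]⟩
  | push s i b =>
    refine ⟨1, by norm_num, ?_⟩
    cases b <;> simp [stp, instr, opr]
  | pop s i => exact ⟨1, by norm_num, by simp [stp, instr, opr]⟩
  | query_yes s i j hi => exact absurd hi (by simp)
  | query_no s i j hi => exact ⟨1, by norm_num, by simp [stp, instr, opr]⟩
  | @seq p q s s' s'' t t' _ _ ih₁ ih₂ =>
    obtain ⟨n₁, hn₁, e₁⟩ := ih₁ (q :: ks)
    obtain ⟨n₂, hn₂, e₂⟩ := ih₂ ks
    have e₀ : stp (.run (.seq p q :: ks), s) = (.run (p :: q :: ks), s) := by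
      simp [stp, instr, opr_zero]
    refine ⟨n₂ + (n₁ + 1), by omega, ?_⟩
    rw [iterate_add_apply, iterate_add_apply, iterate_one, e₀, e₁, e₂]
  | @ite_nil p q r s s' t i hi _ ih =>
    obtain ⟨n₁, hn₁, e₁⟩ := ih ks
    have e₀ : stp (.run (.ite i p q r :: ks), s) = (.run (p :: ks), s) := by
      simp [stp, instr, opr_zero, hi, topc]
    refine ⟨n₁ + 1, by omega, ?_⟩
    rw [iterate_add_apply, iterate_one, e₀, e₁]
  | @ite_false p q r s s' t i hi _ ih =>
    obtain ⟨n₁, hn₁, e₁⟩ := ih ks
    have e₀ : stp (.run (.ite i p q r :: ks), s) = (.run (q :: ks), s) := by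
      have h1 : topc (s i) = 1 := by
        cases hs : s i with
        | nil => simp [hs] at hi
        | cons b w => cases b <;> simp_all [topc]
      simp [stp, instr, opr_zero, h1]
    refine ⟨n₁ + 1, by omega, ?_⟩
    rw [iterate_add_apply, iterate_one, e₀, e₁]
  | @ite_true p q r s s' t i hi _ ih =>
    obtain ⟨n₁, hn₁, e₁⟩ := ih ks
    have e₀ : stp (.run (.ite i p q r :: ks), s) = (.run (r :: ks), s) := by
      have h1 : topc (s i) = 2 := (topc_eq_two _).2 hi
      simp [stp, instr, opr_zero, h1]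
    refine ⟨n₁ + 1, by omega, ?_⟩
    rw [iterate_add_apply, iterate_one, e₀, e₁]
  | @loop_stop p s i hi =>
    refine ⟨1, by norm_num, ?_⟩
    have h1 : topc (s i) = 0 := by rw [hi]; rfl
    simp [stp, instr, opr_zero, h1]
  | @loop_step p s s' s'' t t' i hi _ _ ih₁ ih₂ =>
    obtain ⟨n₁, hn₁, e₁⟩ := ih₁ (.loop i p :: ks)
    obtain ⟨n₂, hn₂, e₂⟩ := ih₂ ks
    have e₀ : stp (.run (.loop i p :: ks), s) = (.run (p :: .loop i p :: ks), s) := by
      have h1 : topc (s i) ≠ 0 := by
        cases hs : s i with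
        | nil => exact absurd hs hi
        | cons b w => cases b <;> simp [topc]
      simp [stp, instr, opr_zero, h1]
    refine ⟨n₂ + (n₁ + 1), by omega, ?_⟩
    rw [iterate_add_apply, iterate_add_apply, iterate_one, e₀, e₁, e₂]

theorem stp_acc (s : ℕ → Word) (n : ℕ) : stp^[n] (.acc, s) = (.acc, s) := by
  refine iterate_fixed ?_ n
  simp [stp, instr, opr_zero]

theorem stp_rej (s : ℕ → Word) (n : ℕ) : stp^[n] (.rej, s) = (.rej, s) := by
  refine iterate_fixed ?_ n
  simp [stp, instr, opr_zero]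

theorem sim_full {p : Prog} {s s' : ℕ → Word} {t m : ℕ} (h : Eval ∅ p s t s')
    (hm : 2 * t + 1 ≤ m) :
    (stp^[m] (.run [p], s)).1 = .acc ↔ (s' 0).head? = some true := by
  obtain ⟨n, hn, e⟩ := sim h []
  obtain ⟨k, rfl⟩ : ∃ k, m = k + (1 + n) := ⟨m - (1 + n), by omega⟩
  rw [iterate_add_apply, iterate_add_apply, e, iterate_one, ← topc_eq_two]
  by_cases h2 : topc (s' 0) = 2
  · have e1 : stp (.run [], s') = (.acc, s') := by simp [stp, instr, opr_zero, h2]
    rw [e1, stp_acc]
    simp [h2]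
  · have e1 : stp (.run [], s') = (.rej, s') := by simp [stp, instr, opr_zero, h2]
    rw [e1, stp_rej]
    simp [h2]

/-! ### The states are finite in number -/

open ToTM2 in
/-- the states of the machine of the program `p` -/
def RS (p : Prog) : Set S := {.acc, .rej} ∪ S.run '' ({[]} ∪ reach p [])

theorem RS_finite (p : Prog) : (RS p).Finite :=
  ((Set.finite_singleton _).insert _).union
    (((Set.finite_singleton _).union (ToTM2.reach_finite p [])).image _)

/-- the continuations reachable from a member of `reach p ks` -/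
theorem instr_reach (p : Prog) : ∀ (ks : List Prog) (l : List Prog), l ∈ ToTM2.reach p ks →
    ∀ τ, ((instr (.run l)).2 τ).2 ∈ S.run '' (ToTM2.reach p ks ∪ {ks}) := by
  have hmem := ToTM2.self_mem_reach
  induction p with
  | skip =>
    rintro ks l hl τ
    obtain rfl : l = _ := hl
    exact ⟨ks, Or.inr rfl, rfl⟩
  | push i b =>
    rintro ks l hl τ
    obtain rfl : l = _ := hl
    exact ⟨ks, Or.inr rfl, rfl⟩
  | pop i =>
    rintro ks l hl τ
    obtain rfl : l = _ := hl
    exact ⟨ks, Or.inr rfl, rfl⟩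
  | query i j =>
    rintro ks l hl τ
    obtain rfl : l = _ := hl
    exact ⟨ks, Or.inr rfl, rfl⟩
  | seq p q ihp ihq =>
    rintro ks l (hl | hl | hl) τ
    · obtain rfl : l = _ := hl
      exact ⟨p :: q :: ks, Or.inl (Or.inr (Or.inl (hmem _ _))), rfl⟩
    · obtain ⟨m, hm, e⟩ := ihp (q :: ks) l hl τ
      refine ⟨m, ?_, e⟩
      rcases hm with hm | hm
      · exact Or.inl (Or.inr (Or.inl hm))
      · obtain rfl : m = _ := hm
        exact Or.inl (Or.inr (Or.inr (hmem _ _)))
    · obtain ⟨m, hm, e⟩ := ihq ks l hl τ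
      refine ⟨m, ?_, e⟩
      rcases hm with hm | hm
      · exact Or.inl (Or.inr (Or.inr hm))
      · exact Or.inr hm
  | ite i p q r ihp ihq ihr =>
    rintro ks l (hl | hl | hl | hl) τ
    · obtain rfl : l = _ := hl
      simp only [instr]
      split_ifs
      · exact ⟨p :: ks, Or.inl (Or.inr (Or.inl (hmem _ _))), rfl⟩
      · exact ⟨q :: ks, Or.inl (Or.inr (Or.inr (Or.inl (hmem _ _)))), rfl⟩
      · exact ⟨r :: ks, Or.inl (Or.inr (Or.inr (Or.inr (hmem _ _)))), rfl⟩
    · obtain ⟨m, hm, e⟩ := ihp ks l hl τ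
      refine ⟨m, ?_, e⟩
      rcases hm with hm | hm
      · exact Or.inl (Or.inr (Or.inl hm))
      · exact Or.inr hm
    · obtain ⟨m, hm, e⟩ := ihq ks l hl τ
      refine ⟨m, ?_, e⟩
      rcases hm with hm | hm
      · exact Or.inl (Or.inr (Or.inr (Or.inl hm)))
      · exact Or.inr hm
    · obtain ⟨m, hm, e⟩ := ihr ks l hl τ
      refine ⟨m, ?_, e⟩
      rcases hm with hm | hm
      · exact Or.inl (Or.inr (Or.inr (Or.inr hm)))
      · exact Or.inr hm
  | loop i p ih =>
    rintro ks l (hl | hl) τ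
    · obtain rfl : l = _ := hl
      simp only [instr]
      split_ifs
      · exact ⟨ks, Or.inr rfl, rfl⟩
      · exact ⟨p :: .loop i p :: ks, Or.inl (Or.inr (hmem _ _)), rfl⟩
    · obtain ⟨m, hm, e⟩ := ih (.loop i p :: ks) l hl τ
      refine ⟨m, ?_, e⟩
      rcases hm with hm | hm
      · exact Or.inl (Or.inr hm)
      · obtain rfl : m = _ := hm
        exact Or.inl (Or.inl rfl)

theorem RS_closed {p : Prog} {q : S} (hq : q ∈ RS p) (τ : ℕ) : ((instr q).2 τ).2 ∈ RS p := by
  rcases hq with (rfl | rfl) | ⟨l, hl, rfl⟩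
  · exact Or.inl (Or.inl rfl)
  · exact Or.inl (Or.inr rfl)
  · rcases hl with hl | hl
    · obtain rfl : l = _ := hl
      simp only [instr]
      split_ifs
      · exact Or.inl (Or.inl rfl)
      · exact Or.inl (Or.inr rfl)
    · obtain ⟨m, hm, e⟩ := instr_reach p [] l hl τ
      refine Or.inr ⟨m, ?_, e⟩
      rcases hm with hm | hm
      · exact Or.inr hm
      · exact Or.inl hm

theorem iterate_mem {p : Prog} {a : S × (ℕ → Word)} (ha : a.1 ∈ RS p) (n : ℕ) :
    (stp^[n] a).1 ∈ RS p := by
  induction n with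
  | zero => exact ha
  | succ n ih =>
    rw [iterate_succ_apply']
    exact RS_closed ih _

/-! ### Addresses -/

theorem adr_inj {c q x c' q' x' : ℕ} (hc : c < 16) (hc' : c' < 16)
    (h : adr c q x = adr c' q' x') : c = c' ∧ q = q' ∧ x = x' := by
  unfold adr at h
  have key : ∀ {a q b r : ℕ}, (q + a) * (q + a) + q = (r + b) * (r + b) + r → a = b ∧ q = r := by
    intro a q b r h
    have h1 : q + a = r + b := by
      rcases lt_trichotomy (q + a) (r + b) with h2 | h2 | h2
      · exfalso
        nlinarith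
      · exact h2
      · exfalso
        nlinarith
    rw [h1] at h
    omega
  obtain ⟨h1, h2⟩ := key h
  omega

/-! ### The coding -/

theorem exists_num (p : Prog) : ∃ num : S → ℕ, num (.run [p]) = 0 ∧ num .acc = 1 ∧ num .rej = 2 ∧
    Set.InjOn num (RS p) := by
  classical
  obtain ⟨f, hf⟩ := Set.countable_iff_exists_injOn.1
    (((Set.finite_singleton ([] : List Prog)).union (ToTM2.reach_finite p [])).countable)
  refine ⟨fun q => match q with
    | .run l => if l = [p] then 0 else 3 + f l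
    | .acc => 1
    | .rej => 2, by simp, rfl, rfl, ?_⟩
  rintro a ha b hb hab
  rcases ha with (rfl | rfl) | ⟨l, hl, rfl⟩ <;> rcases hb with (rfl | rfl) | ⟨m, hm, rfl⟩
  · rfl
  · simp at hab
  · simp only at hab
    split_ifs at hab <;> omega
  · simp at hab
  · rfl
  · simp only at hab
    split_ifs at hab <;> omega
  · simp only at hab
    split_ifs at hab <;> omega
  · simp only at hab
    split_ifs at hab <;> omega
  · simp only at hab
    split_ifs at hab with h1 h2 h2
    · rw [h1, h2]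
    · omega
    · omega
    · rw [hf hl hm (by omega)]

section Table

variable {p : Prog} {num : S → ℕ} (h1 : num .acc = 1) (hinj : Set.InjOn num (RS p)) {w : Word}
  (hw : ∀ c q x, tab w c q x = true ↔ (∃ a ∈ RS p, adr c q x = adr 12 (num a) (instr a).1) ∨
    ∃ a ∈ RS p, ∃ τ < 3, adr c q x = adr (4 * τ + ((instr a).2 τ).1) (num a)
      (num ((instr a).2 τ).2))

include hinj hw

theorem tab_stack {a : S} (ha : a ∈ RS p) (k : ℕ) :
    tab w 12 (num a) k = true ↔ k = (instr a).1 := by
  rw [hw]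
  constructor
  · rintro (⟨b, hb, e⟩ | ⟨b, hb, τ, hτ, e⟩)
    · obtain ⟨-, e1, e2⟩ := adr_inj (by norm_num) (by norm_num) e
      rw [hinj ha hb e1]
      exact e2
    · have := instr_op_lt b τ
      obtain ⟨e0, -, -⟩ := adr_inj (by norm_num) (by omega) e
      omega
  · rintro rfl
    exact Or.inl ⟨a, ha, rfl⟩

theorem tab_next {a : S} (ha : a ∈ RS p) {τ o : ℕ} (hτ : τ < 3) (ho : o < 4) (x : ℕ) :
    tab w (4 * τ + o) (num a) x = true ↔ o = ((instr a).2 τ).1 ∧ x = num ((instr a).2 τ).2 := by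
  rw [hw]
  constructor
  · rintro (⟨b, hb, e⟩ | ⟨b, hb, τ', hτ', e⟩)
    · obtain ⟨e0, -, -⟩ := adr_inj (by omega) (by norm_num) e
      omega
    · have := instr_op_lt b τ'
      obtain ⟨e0, e1, e2⟩ := adr_inj (by omega) (by omega) e
      obtain rfl := hinj ha hb e1
      obtain rfl : τ = τ' := by omega
      exact ⟨by omega, e2⟩
  · rintro ⟨rfl, rfl⟩
    exact Or.inr ⟨a, ha, τ, hτ, rfl⟩

theorem stW_iff {a : S} (ha : a ∈ RS p) (s : ℕ → Word) (c' : ℕ × (ℕ → Word)) :
    StW w (num a, s) c' ↔ c' = (num (stp (a, s)).1, (stp (a, s)).2) := by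
  constructor
  · rintro ⟨k, o, ho, e1, e2, e3⟩
    obtain rfl := (tab_stack hinj hw ha k).1 e1
    obtain ⟨rfl, e4⟩ := (tab_next hinj hw ha (topc_lt _) ho _).1 e2
    refine Prod.ext e4 e3
  · rintro rfl
    refine ⟨(instr a).1, ((instr a).2 (topc (s (instr a).1))).1, instr_op_lt _ _, ?_, ?_, rfl⟩
    · exact (tab_stack hinj hw ha _).2 rfl
    · exact (tab_next hinj hw ha (topc_lt _) (instr_op_lt _ _) _).2 ⟨rfl, rfl⟩

include h1

theorem accW_iff (h0 : num (.run [p]) = 0) (s : ℕ → Word) (m : ℕ) :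
    AccW w s m ↔ (stp^[m] (.run [p], s)).1 = .acc := by
  have hp : S.run [p] ∈ RS p := Or.inr ⟨[p], Or.inr (ToTM2.self_mem_reach _ _), rfl⟩
  have hacc : S.acc ∈ RS p := Or.inl (Or.inl rfl)
  constructor
  · rintro ⟨g, g0, gs, gm⟩
    have key : ∀ i ≤ m, g i = (num (stp^[i] (.run [p], s)).1, (stp^[i] (.run [p], s)).2) := by
      intro i
      induction i with
      | zero => intro _; rw [g0, iterate_zero, id_eq, h0]
      | succ i ih =>
        intro hi
        have h2 := gs i (by omega)
        rw [ih (by omega), stW_iff hinj hw (iterate_mem hp i)] at h2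
        rw [h2, iterate_succ_apply']
    rw [key m le_rfl, ← h1] at gm
    exact hinj (iterate_mem hp m) hacc gm
  · intro h
    refine ⟨fun i => (num (stp^[i] (.run [p], s)).1, (stp^[i] (.run [p], s)).2), ?_, ?_, ?_⟩
    · simp [h0]
    · intro i _
      rw [stW_iff hinj hw (iterate_mem hp i)]
      beta_reduce
      rw [iterate_succ_apply']
    · show num _ = 1
      rw [h, h1]

end Table

/-- **module (b)** -/
theorem stComp : StComp := by
  classical
  intro p
  obtain ⟨num, h0, h1, h2, hinj⟩ := exists_num p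
  let AD : Set ℕ := ((fun a => adr 12 (num a) (instr a).1) '' RS p) ∪
    ((fun z : S × ℕ => adr (4 * z.2 + ((instr z.1).2 z.2).1) (num z.1)
      (num ((instr z.1).2 z.2).2)) '' (RS p ×ˢ Set.Iio 3))
  have hfin : AD.Finite :=
    ((RS_finite p).image _).union (((RS_finite p).prod (Set.finite_Iio 3)).image _)
  obtain ⟨B, hB⟩ := hfin.bddAbove
  refine ⟨B + 1, fun N hN => ⟨(List.range N).map fun a => decide (a ∈ AD), by simp, ?_⟩⟩
  intro s s' t m he hm
  rw [accW_iff h1 hinj ?_ h0, sim_full he hm]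
  intro c q x
  have h3 : tab ((List.range N).map fun a => decide (a ∈ AD)) c q x = true ↔ adr c q x ∈ AD := by
    unfold tab
    rw [List.getD_eq_getElem?_getD, List.getElem?_map]
    by_cases h4 : adr c q x < N
    · rw [List.getElem?_range h4]
      simp
    · have h5 : adr c q x ∉ AD := fun h => h4 (by have := hB h; omega)
      rw [List.getElem?_eq_none (by simpa using h4)]
      simp [h5]
  rw [h3]
  constructor
  · rintro (⟨a, ha, e⟩ | ⟨⟨a, τ⟩, ⟨ha, hτ⟩, e⟩)
    · exact Or.inl ⟨a, ha, e.symm⟩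
    · exact Or.inr ⟨a, ha, τ, hτ, e.symm⟩
  · rintro (⟨a, ha, e⟩ | ⟨a, ha, τ, hτ, e⟩)
    · exact Or.inl ⟨a, ha, e.symm⟩
    · exact Or.inr ⟨(a, τ), ⟨ha, hτ⟩, e.symm⟩

end Vale.Agent.P027.N.D.B
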