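import Vale.Agent.P027.H847.D.Ver1
import Vale.Agent.Lib.PolyTime.NatArith2
import Vale.Agent.Lib.PolyTime.Unary

/-! Programs that read exponentially long certificates. -/

set_option linter.all false

namespace Vale.Agent.P027.N.D.E

open Vale.Agent.Lib.PolyTime Function Vale.Agent.P027.N.D.V

variable {A : Set Word}

/-- double the length of stack 3, through stack 4 -/
def dbl3 : Prog :=
  .seq (.loop 3 (.seq (.pop 3) (.seq (.push 4 true) (.push 4 true)))) (.mv 4 3)

theorem Runs_dbl3a {s : ℕ → Word} :
    Runs A (.loop 3 (.seq (.pop 3) (.seq (.push 4 true) (.push 4 true)))) s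
      (4 * (s 3).length + 1)
      (update (update s 3 []) 4 (List.replicate (2 * (s 3).length) true ++ s 4)) := by
  generalize hw : s 3 = w
  induction w generalizing s with
  | nil =>
    refine (Runs.loop_stop hw).congr ?_
    funext i
    rcases eq_or_ne i 4 with rfl | h4
    · simp
    · rw [update_of_ne h4]
      rcases eq_or_ne i 3 with rfl | h3
      · simp [hw]
      · rw [update_of_ne h3]
  | cons c w ih =>
    have h0 : Runs A (.seq (.pop 3) (.seq (.push 4 true) (.push 4 true))) s 3
        (update (update s 3 w) 4 (true :: true :: s 4)) := by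
      refine ((Runs.pop (A := A) (s := s) 3).seq ((Runs.push 4 true).seq (Runs.push 4 true))).congr ?_
      funext i
      rcases eq_or_ne i 4 with rfl | h4
      · simp [hw]
      · rcases eq_or_ne i 3 with rfl | h3
        · simp [hw]
        · simp [update_of_ne h4, update_of_ne h3]
    have h2 := ih (s := update (update s 3 w) 4 (true :: true :: s 4)) (by simp)
    refine ((Runs.loop_step (by simp [hw]) h0 h2).congr ?_).mono ?_
    · funext i
      rcases eq_or_ne i 4 with rfl | h4
      · simp only [update_self, List.length_cons]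
        rw [show 2 * (w.length + 1) = 2 * w.length + 2 by ring, List.replicate_add,
          List.append_assoc]
        rfl
      · rcases eq_or_ne i 3 with rfl | h3
        · simp [update_of_ne h4]
        · simp [update_of_ne h4, update_of_ne h3]
    · simp only [List.length_cons]
      omega

theorem Runs_dbl3 {s : ℕ → Word} {a : ℕ} (h3 : s 3 = List.replicate a true) (h4 : s 4 = []) :
    Runs A dbl3 s (12 * a + 2) (update s 3 (List.replicate (2 * a) true)) := by
  have r1 := Runs_dbl3a (A := A) (s := s)
  rw [h3, h4, List.length_replicate, List.append_nil] at r1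
  set s1 := update (update s 3 []) 4 (List.replicate (2 * a) true) with hs1
  have r2 := Runs.mv (A := A) (s := s1) (i := 4) (j := 3) (by norm_num)
  have e4 : s1 4 = List.replicate (2 * a) true := by rw [hs1, update_self]
  have e3 : s1 3 = [] := by rw [hs1, update_of_ne (by norm_num), update_self]
  rw [e4, e3, List.length_replicate, List.append_nil, List.reverse_replicate] at r2
  refine ((r1.seq r2).congr ?_).mono (by omega)
  funext i
  rcases eq_or_ne i 3 with rfl | hi3
  · simp
  · rw [update_of_ne hi3, update_of_ne hi3]
    rcases eq_or_ne i 4 with rfl | hi4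
    · simp [h4]
    · rw [update_of_ne hi4, hs1, update_of_ne hi4, update_of_ne hi3]

/-- the loop that doubles stack 3 once for every bit of stack 2 -/
theorem Runs_pow {s : ℕ → Word} {a : ℕ} (h3 : s 3 = List.replicate a true) (h4 : s 4 = [])
    (ha : 0 < a) :
    Runs A (.loop 2 (.seq (.pop 2) dbl3)) s (16 * (a * 2 ^ (s 2).length) + 1 - 16 * a)
      (update (update s 2 []) 3 (List.replicate (a * 2 ^ (s 2).length) true)) := by
  generalize hw : s 2 = w
  induction w generalizing s a with
  | nil =>
    refine ((Runs.loop_stop hw).congr ?_).mono (by simp)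
    funext i
    rcases eq_or_ne i 3 with rfl | hi3
    · simp [h3]
    · rw [update_of_ne hi3]
      rcases eq_or_ne i 2 with rfl | hi2
      · simp [hw]
      · rw [update_of_ne hi2]
  | cons c w ih =>
    have h0 : Runs A (.pop 2) s 1 (update s 2 w) := by
      have := Runs.pop (A := A) (s := s) 2
      rwa [hw, List.tail_cons] at this
    have h1 := Runs_dbl3 (A := A) (s := update s 2 w) (a := a) (by simpa using h3)
      (by simpa using h4)
    have h2 := ih (s := update (update s 2 w) 3 (List.replicate (2 * a) true)) (a := 2 * a)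
      (by simp) (by simpa using h4) (by omega) (by simp)
    refine ((Runs.loop_step (by simp [hw]) (h0.seq h1) h2).congr ?_).mono ?_
    · funext i
      rcases eq_or_ne i 3 with rfl | hi3
      · simp only [update_self, List.length_cons]
        congr 1
        ring
      · rcases eq_or_ne i 2 with rfl | hi2
        · simp [update_of_ne hi3]
        · simp [update_of_ne hi3, update_of_ne hi2]
    · simp only [List.length_cons]
      have h5 : 1 ≤ 2 ^ w.length := Nat.one_le_two_pow
      have h6 : a * 2 ^ (w.length + 1) = 2 * (a * 2 ^ w.length) := by ring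
      have h7 : 2 * a * 2 ^ w.length = 2 * (a * 2 ^ w.length) := by ring
      have h8 : a ≤ a * 2 ^ w.length := Nat.le_mul_of_pos_right a (by omega)
      rw [h6, h7]
      omega

/-- replace the content of stack 2, of length `n`, by a word of length `2 ^ n` -/
def clk : Prog := .seq (.push 3 true) (.seq (.loop 2 (.seq (.pop 2) dbl3)) (.mv 3 2))

theorem Runs_clk {s : ℕ → Word} (h3 : s 3 = []) (h4 : s 4 = []) :
    Runs A clk s (20 * 2 ^ (s 2).length) (update s 2 (List.replicate (2 ^ (s 2).length) true)) := by
  have r1 := Runs.push (A := A) (s := s) 3 true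
  rw [h3] at r1
  have r2 := Runs_pow (A := A) (s := update s 3 [true]) (a := 1) (by simp) (by simpa using h4)
    (by norm_num)
  have e2 : update s 3 [true] 2 = s 2 := by simp
  rw [e2, one_mul] at r2
  set s1 := update (update (update s 3 [true]) 2 []) 3 (List.replicate (2 ^ (s 2).length) true)
    with hs1
  have r3 := Runs.mv (A := A) (s := s1) (i := 3) (j := 2) (by norm_num)
  have e13 : s1 3 = List.replicate (2 ^ (s 2).length) true := by rw [hs1, update_self]
  have e12 : s1 2 = [] := by rw [hs1, update_of_ne (by norm_num), update_self]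
  rw [e13, e12, List.length_replicate, List.append_nil, List.reverse_replicate] at r3
  refine ((r1.seq (r2.seq r3)).congr ?_).mono ?_
  · funext i
    rcases eq_or_ne i 2 with rfl | hi2
    · simp
    · rw [update_of_ne hi2, update_of_ne hi2]
      rcases eq_or_ne i 3 with rfl | hi3
      · simp [h3]
      · rw [update_of_ne hi3, hs1, update_of_ne hi3, update_of_ne hi2, update_of_ne hi3]
  · have h5 : 1 ≤ 2 ^ (s 2).length := Nat.one_le_two_pow
    omega

/-- From a checker on pairs to a program that reads the first `2 ^ |u x|` bits of the certificate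
from stack 1. -/
theorem exists_prog_exp {g : Word → Word} (hg : FP A g) : ∃ cg : ℕ, ∀ u : Word → Word, FP A u →
    ∃ (p : Prog) (cu : ℕ), ∀ x r, ∃ s, Runs A p (start x r)
      (pb cu x.length + 40 * 2 ^ (u x).length + 9 * x.length + 10 +
        pb cg (2 * x.length + 2 ^ (u x).length + 1)) s ∧
      s 0 = g (pr x (r.take (2 ^ (u x).length))) := by
  obtain ⟨pg, wg, cg, hwg, hlg, hrg⟩ := hg.elim
  refine ⟨cg, fun u hu => ?_⟩
  obtain ⟨pu, wu, cu, hwu, hlu, hru⟩ := hu.elim
  refine ⟨.seq (pu.rename (rel 0 2 5)) (.seq clk (.seq takeLoop (.seq (.mv 3 4)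
    (.seq (.push 4 false) (.seq (.mv 0 5) (.seq (.mvd 5 4) (pg.rename (rel 4 0 5)))))))), cu,
    fun x r => ?_⟩
  set n := 2 ^ (u x).length with hn
  have hn1 : 1 ≤ n := Nat.one_le_two_pow
  -- memory after each step
  set s0 := start x r with hs0
  have e00 : s0 0 = x := by simp [hs0, start]
  have e01 : s0 1 = r := by simp [hs0, start]
  have e0i : ∀ i, 2 ≤ i → s0 i = [] := by
    intro i hi
    simp only [hs0, start]
    rw [if_neg (by omega), if_neg (by omega)]
  have r0 := hru 0 2 5 (by norm_num) (by norm_num) (by norm_num) s0 (e0i 2 (by norm_num))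
    (fun i hi _ => e0i i (by omega))
  rw [e00] at r0
  have r1 := Runs_clk (A := A) (s := update s0 2 (u x))
    (by rw [update_of_ne (by norm_num), e0i 3 (by norm_num)])
    (by rw [update_of_ne (by norm_num), e0i 4 (by norm_num)])
  rw [update_self, update_idem, ← hn] at r1
  set s1 := update s0 2 (List.replicate n true) with hs1
  have r2 := Runs_takeLoop (A := A) (s := s1)
  have e12 : (s1 2).length = n := by rw [hs1, update_self, List.length_replicate]
  have e11 : s1 1 = r := by rw [hs1, update_of_ne (by norm_num), e01]
  have e13 : s1 3 = [] := by rw [hs1, update_of_ne (by norm_num), e0i 3 (by norm_num)]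
  rw [e12, e11, e13, List.append_nil] at r2
  set s2 := update (update (update s1 2 []) 1 (r.drop n)) 3 (r.take n).reverse with hs2
  have r3 := Runs.mv (A := A) (s := s2) (i := 3) (j := 4) (by norm_num)
  have e23 : s2 3 = (r.take n).reverse := by rw [hs2, update_self]
  have e24 : s2 4 = [] := by
    rw [hs2, update_of_ne (by norm_num), update_of_ne (by norm_num), update_of_ne (by norm_num),
      hs1, update_of_ne (by norm_num), e0i 4 (by norm_num)]
  rw [e23, e24, List.reverse_reverse, List.append_nil] at r3
  set s3 := update (update s2 3 []) 4 (r.take n) with hs3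
  have r4 := Runs.push (A := A) (s := s3) 4 false
  have e34 : s3 4 = r.take n := by rw [hs3, update_self]
  rw [e34] at r4
  set s4 := update s3 4 (false :: r.take n) with hs4
  have r5 := Runs.mv (A := A) (s := s4) (i := 0) (j := 5) (by norm_num)
  have e2o : ∀ i, i ≠ 1 → i ≠ 2 → i ≠ 3 → s2 i = s0 i := by
    intro i h1 h2 h3
    rw [hs2, update_of_ne h3, update_of_ne h1, update_of_ne h2, hs1, update_of_ne h2]
  have e4o : ∀ i, i ≠ 1 → i ≠ 2 → i ≠ 3 → i ≠ 4 → s4 i = s0 i := by
    intro i h1 h2 h3 h4
    rw [hs4, update_of_ne h4, hs3, update_of_ne h4, update_of_ne h3, e2o i h1 h2 h3]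
  have e40 : s4 0 = x := by rw [e4o 0 (by norm_num) (by norm_num) (by norm_num) (by norm_num), e00]
  have e45 : s4 5 = [] := by
    rw [e4o 5 (by norm_num) (by norm_num) (by norm_num) (by norm_num), e0i 5 (by norm_num)]
  rw [e40, e45, List.append_nil] at r5
  set s5 := update (update s4 0 []) 5 x.reverse with hs5
  have r6 := Runs.mvd (A := A) (s := s5) (k := 5) (j := 4) (by norm_num)
  have e55 : s5 5 = x.reverse := by rw [hs5, update_self]
  have e54 : s5 4 = false :: r.take n := by
    rw [hs5, update_of_ne (by norm_num), update_of_ne (by norm_num), hs4, update_self]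
  rw [e55, e54, List.reverse_reverse, ← pr_eq] at r6
  set s6 := update (update s5 5 []) 4 (pr x (r.take n)) with hs6
  have e64 : s6 4 = pr x (r.take n) := by rw [hs6, update_self]
  have e60 : s6 0 = [] := by
    rw [hs6, update_of_ne (by norm_num), update_of_ne (by norm_num), hs5,
      update_of_ne (by norm_num), update_self]
  have e6i : ∀ i, 6 ≤ i → s6 i = [] := by
    intro i hi
    rw [hs6, update_of_ne (by omega), update_of_ne (by omega), hs5, update_of_ne (by omega),
      update_of_ne (by omega), e4o i (by omega) (by omega) (by omega) (by omega), e0i i (by omega)]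
  have r7 := hrg 4 0 5 (by norm_num) (by norm_num) (by norm_num) s6 e60
    (fun i hi _ => e6i i (by omega))
  rw [e64] at r7
  refine ⟨update s6 0 (g (pr x (r.take n))), ?_, by rw [update_self]⟩
  refine (r0.seq (r1.seq (r2.seq (r3.seq (r4.seq (r5.seq (r6.seq r7))))))).mono ?_
  simp only [List.length_reverse]
  have h1 : (r.take n).length ≤ n := by rw [List.length_take]; exact min_le_left _ _
  have h2 : (pr x (r.take n)).length ≤ 2 * x.length + n + 1 := by rw [length_pr]; omega
  have h3 := pb_mono cg h2
  omega

/-- the length, divided by a constant, in unary -/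
theorem exists_div (k : ℕ) : ∃ u : Word → Word, FP ∅ u ∧ ∀ x, (u x).length = x.length / k := by
  have h1 : PT ∅ (fun x : Raw => Un.mk (x.w.length / k)) := by
    refine PT.mkUn (PT.div (PT.rawLength PT.id) (PT.const k)) ?_
    exact PBd.esize.mono fun x => Nat.div_le_self _ _
  obtain ⟨u, hu, hu'⟩ := h1
  refine ⟨u, hu, fun x => ?_⟩
  have h2 := hu' (Raw.mk x)
  have h3 : u x = enc (Un.mk (x.length / k)) := h2
  rw [h3, enc_un, List.length_replicate]

end Vale.Agent.P027.N.D.E
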