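import Vale.Agent.Lib.PolyTime.OfTM2

/-! Simulation of Mathlib's machines for a given number of steps. -/

set_option linter.all false

namespace Vale.Agent.P027.N.D.T

open Vale.Agent.Lib.PolyTime Vale.Agent.Lib.PolyTime.OfTM2 Function Turing

theorem iterate_fixed_none {K : Type} [DecidableEq K] {Γ : K → Type} {Λ σ : Type}
    (m : Λ → TM2.Stmt Γ Λ σ) (c : TM2.Cfg Γ Λ σ) (hc : c.l = none) (n : ℕ) :
    (tstep m)^[n] c = c := by
  refine iterate_fixed ?_ n
  obtain ⟨l, v, S⟩ := c
  dsimp only at hc
  subst hc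
  rfl

theorem iterate_reach {K : Type} [DecidableEq K] {Γ : K → Type} {Λ σ : Type}
    (m : Λ → TM2.Stmt Γ Λ σ) (c c' : TM2.Cfg Γ Λ σ) {n N : ℕ} (h : (tstep m)^[n] c = c')
    (hl : ((tstep m)^[N] c).l = none) (hN : N ≤ n) : (tstep m)^[N] c = c' := by
  obtain ⟨j, rfl⟩ := Nat.exists_eq_add_of_le' hN
  rw [iterate_add_apply, iterate_fixed_none _ _ hl] at h
  exact h

/-- The machine `M`, simulated on the input `w` for `|r|` steps: the output is `true :: f w` if the
machine has halted, otherwise `[]`. -/
theorem exists_sim {f : Word → Word} {A : Set Word}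
    (M : TM2ComputableInTime (fun w : Word => w) (fun w : Word => w) f) :
    ∃ g : Word → Word, FP A g ∧ ∀ w r : Word,
      (M.time w.length ≤ r.length → g (pr w r) = true :: f w) ∧
      (g (pr w r) = true :: f w ∨ g (pr w r) = []) := by
  have hK : Fintype M.tm.K := M.tm.kFin
  have hΛ : Fintype M.tm.Λ := M.tm.ΛFin
  have hσ : Fintype M.tm.σ := M.tm.σFin
  set inp : Bool → M.tm.Γ M.tm.k₀ := M.inputAlphabet.invFun with hinp
  set out : Bool → M.tm.Γ M.tm.k₁ := M.outputAlphabet.invFun with hout
  obtain ⟨T, hT⟩ : ∃ T : List (Σ k, M.tm.Γ k), ∀ x, x ∈ T ↔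
      x ∈ ((⋃ l, pushes (M.tm.m l)) ∪ (Set.range (fun b => (⟨M.tm.k₀, inp b⟩ : Σ k, M.tm.Γ k)) ∪
        Set.range fun b => (⟨M.tm.k₁, out b⟩ : Σ k, M.tm.Γ k))) := by
    have hfin : ((⋃ l, pushes (M.tm.m l)) ∪ (Set.range (fun b => (⟨M.tm.k₀, inp b⟩ :
        Σ k, M.tm.Γ k)) ∪ Set.range fun b => (⟨M.tm.k₁, out b⟩ : Σ k, M.tm.Γ k))).Finite :=
      (Set.finite_iUnion fun l => pushes_finite (M.tm.m l)).union
        ((Set.finite_range _).union (Set.finite_range _))
    exact ⟨hfin.toFinset.toList, fun x => by rw [Finset.mem_toList, Set.Finite.mem_toFinset]⟩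
  have hT1 : ∀ l, ∀ x ∈ pushes (M.tm.m l), x ∈ T := fun l x hx =>
    (hT x).2 (Or.inl (Set.mem_iUnion.2 ⟨l, hx⟩))
  have hT2 : ∀ b, (⟨M.tm.k₀, inp b⟩ : Σ k, M.tm.Γ k) ∈ T := fun b =>
    (hT _).2 (Or.inr (Or.inl ⟨b, rfl⟩))
  have hT3 : ∀ b, (⟨M.tm.k₁, out b⟩ : Σ k, M.tm.Γ k) ∈ T := fun b =>
    (hT _).2 (Or.inr (Or.inr ⟨b, rfl⟩))
  -- the initial configuration
  set init : Raw × Raw → Fi (Option M.tm.Λ) × Fi M.tm.σ × (M.tm.K → List ℕ) := fun x =>
    (⟨some M.tm.main⟩, ⟨M.tm.initialState⟩, fun k =>
      if k = M.tm.k₀ then x.1.w.map (fun b => idx T M.tm.k₀ (inp b)) else []) with hinit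
  have hPinit : PT A init := by
    refine (PT.const _).pair ((PT.const _).pair (PT_pi fun k => ?_))
    by_cases h : k = M.tm.k₀
    · have h1 : PT A (fun x : Raw × Raw => x.1.w.map (fun b => idx T M.tm.k₀ (inp b))) := by
        refine PT.map (f := fun (_ : Raw × Raw) b => idx T M.tm.k₀ (inp b))
          (PT.listOfRaw PT.fst') ?_
        refine (PT.cond (c := fun p : (Raw × Raw) × Bool => p.2) PT.snd'
          (PT.const (idx T M.tm.k₀ (inp true))) (PT.const (idx T M.tm.k₀ (inp false)))).congr
          fun p => ?_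
        cases p.2 <;> rfl
      exact h1.congr fun x => by rw [if_pos h]
    · exact (PT.const ([] : List ℕ)).congr fun x => by rw [if_neg h]
  have hinit_eq : ∀ w r : Word, init (⟨w⟩, ⟨r⟩) = cf T (initList M.tm (w.map inp)) := by
    intro w r
    simp only [hinit, cf, initList]
    refine Prod.ext rfl (Prod.ext rfl (funext fun k => ?_))
    by_cases h : k = M.tm.k₀
    · subst h
      simp [mp]
    · simp [mp, h]
  have hOk : ∀ w : Word, Ok T (initList M.tm (w.map inp)).stk := by
    intro w k γ hγ
    by_cases h : k = M.tm.k₀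
    · subst h
      simp only [initList, dite_true] at hγ
      obtain ⟨b, -, rfl⟩ := List.mem_map.1 hγ
      exact hT2 b
    · simp [initList, h] at hγ
  -- the simulation
  obtain ⟨c', hc'⟩ := simStep_size T M.tm.m
  have hu : PT A (fun x : Raw × Raw => x.2) := PT.snd'
  have hrun : PT A (fun x : Raw × Raw => (simStep T M.tm.m)^[esize x.2] (init x)) := by
    have hB : PBd (fun x : Raw × Raw => (2 * Fintype.card (Option M.tm.Λ) +
        (2 * Fintype.card M.tm.σ + (esize (init x) + esize x.2 * c')) + 2)) := by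
      have := hPinit.pbd
      have := hu.pbd
      fun_prop
    refine PT.iterate_esize hu hPinit (PT_simStep T M.tm.m) hB fun x j hj => ?_
    refine (esize_cf _).trans ?_
    have h1 := hc' (init x) j
    have h4 : esize (init x).2.2 ≤ esize (init x) :=
      (esize_snd_le (init x).2).trans (esize_snd_le (init x))
    have h5 := Nat.mul_le_mul_right c' hj
    exact Nat.add_le_add_right (Nat.add_le_add_left (Nat.add_le_add_left
      (h1.trans (Nat.add_le_add h4 h5)) _) _) _
  have hfin : PT A (fun x : Raw × Raw => Raw.mk (match ((simStep T M.tm.m)^[esize x.2] (init x)).1.val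
      with
      | none => true :: (((simStep T M.tm.m)^[esize x.2] (init x)).2.2
          M.tm.k₁).map fun i => decide (i = idx T M.tm.k₁ (out true))
      | some _ => [])) := by
    refine PT.rawOfList ?_
    refine PT_cases (f := fun x : Raw × Raw => ((simStep T M.tm.m)^[esize x.2] (init x)).1) hrun.fst
      (g := fun o x => match o with
        | none => true :: (((simStep T M.tm.m)^[esize x.2] (init x)).2.2
            M.tm.k₁).map fun i => decide (i = idx T M.tm.k₁ (out true))
        | some _ => []) ?_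
    intro o
    cases o with
    | some l => exact PT.const _
    | none =>
      refine PT.cons (PT.const true) (PT.map
        (f := fun (_ : Raw × Raw) i => decide (i = idx T M.tm.k₁ (out true)))
        (PT_apply hrun.snd.snd M.tm.k₁) ?_)
      exact PT.eqNat PT.snd' (PT.const _)
  obtain ⟨g, hg, hg'⟩ := hfin
  refine ⟨g, hg, fun w r => ?_⟩
  have h2 : g (pr w r) = (match ((simStep T M.tm.m)^[r.length] (init (⟨w⟩, ⟨r⟩))).1.val
      with
      | none => true :: (((simStep T M.tm.m)^[r.length] (init (⟨w⟩, ⟨r⟩))).2.2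
          M.tm.k₁).map fun i => decide (i = idx T M.tm.k₁ (out true))
      | some _ => []) := hg' (⟨w⟩, ⟨r⟩)
  rw [h2, hinit_eq, (simStep_iterate hT1 _ (hOk w) _).1]
  obtain ⟨⟨n, hn⟩, hnm⟩ := M.outputsFun w
  have key : ∀ b : List Bool, ((b.map out).map fun x => idx T M.tm.k₁ x).map
      (fun i => decide (i = idx T M.tm.k₁ (out true))) = b := by
    intro b
    rw [List.map_map, List.map_map]
    conv_rhs => rw [← List.map_id b]
    refine List.map_congr_left fun b _ => ?_
    cases b
    · simp only [Function.comp_apply, id_eq, decide_eq_false_iff_not]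
      intro h5
      have := idx_inj (hT3 false) h5
      exact absurd (M.outputAlphabet.symm.injective this) (by decide)
    · simp
  have hval : ∀ c : M.tm.Cfg, (tstep M.tm.m)^[r.length] (initList M.tm (w.map inp)) = c →
      c = haltList M.tm ((f w).map out) →
      (match (cf T c).1.val with
      | none => true :: ((cf T c).2.2 M.tm.k₁).map fun i => decide (i = idx T M.tm.k₁ (out true))
      | some _ => []) = true :: f w := by
    rintro c - rfl
    have h4 : (cf T (haltList M.tm ((f w).map out))).2.2 M.tm.k₁ =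
        ((f w).map out).map fun x => idx T M.tm.k₁ x := by
      simp [cf, mp, haltList]
    show true :: (((cf T (haltList M.tm ((f w).map out))).2.2 M.tm.k₁).map
      fun i => decide (i = idx T M.tm.k₁ (out true))) = true :: f w
    rw [h4, key]
  constructor
  · intro h3
    exact hval _ rfl (tstep_iterate' M.tm.m n _ _ hn rfl _ (hnm.trans h3))
  · rcases hl : ((tstep M.tm.m)^[r.length] (initList M.tm (w.map inp))).l with _ | l
    · left
      refine hval _ rfl ?_
      rcases le_total n r.length with h3 | h3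
      · exact tstep_iterate' M.tm.m n _ _ hn rfl _ h3
      · exact iterate_reach M.tm.m _ _ (tstep_iterate M.tm.m n _ _ hn) hl h3
    · right
      have h5 : (cf T ((tstep M.tm.m)^[r.length] (initList M.tm (w.map inp)))).1.val = some l := hl
      rw [h5]

end Vale.Agent.P027.N.D.T
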