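import Vale.Agent.P027.H847.D.Sub
import Vale.Agent.P027.H847.D.TimeSim

/-! Time lower bounds for Turing machines, from the lower bound for certificates. -/

set_option linter.all false

namespace Vale.Agent.P027.N.D

open Vale.Agent.Lib.PolyTime Function
open Vale.Agent.P027.N.U (Poly toMv codeP)

/-- **no algorithm runs in subexponential time**: a machine that decides whether a polynomial of
degree at most four has a rational zero does not run in time `O(2 ^ (n ^ (1 / c)))`. -/
theorem no_time (red : Red Lg) : ∃ c : ℕ, 0 < c ∧ ∀ (f : List Bool → List Bool)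
    (M : Turing.TM2ComputableInTime (id : List Bool → List Bool) (id : List Bool → List Bool) f),
    (∀ F : Poly, (toMv F).totalDegree ≤ 4 → (f (codeP F) = [true] ↔ HasZero F)) →
    ∀ K : ℕ, ∃ n : ℕ, ∀ m, m ^ c ≤ n → K * 2 ^ m < M.time n := by
  obtain ⟨c, hc0, hc⟩ := no_short red
  refine ⟨c, hc0, fun f M hf K => ?_⟩
  obtain ⟨g, hg, hgM⟩ := Vale.Agent.P027.N.D.T.exists_sim (A := ∅) M
  have hV : FP ∅ (fun z => case3 (g z) [false] [false]
      (if (g z).tail = [true] then [false] else [true])) :=
    hg.case3 (FP.const [false]) (FP.const [false]) (fp_test (FP.tail.comp hg) false true)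
  obtain ⟨F, hF, hFz, hFr⟩ := hc _ (polyTime_iff.2 hV) (by
    intro F hF r hr
    rw [pairW_eq] at hr
    rcases (hgM (codeP F) r).2 with h | h
    · rw [h, case3_true, List.tail_cons] at hr
      intro h0
      rw [if_pos ((hf F hF).2 h0)] at hr
      simp at hr
    · rw [h, case3_nil] at hr
      simp at hr) K
  refine ⟨(codeP F).length, fun m hm => ?_⟩
  have h1 := hFr (List.replicate (M.time (codeP F).length) true) (by
    rw [pairW_eq, (hgM (codeP F) _).1 (by rw [List.length_replicate]), case3_true,
      List.tail_cons, if_neg fun h => hFz ((hf F hF).1 h)]) m hm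
  rwa [List.length_replicate] at h1

end Vale.Agent.P027.N.D
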