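import Vale.Agent.P027.H847.D.Zak

/-! Certificates for solvability are long: lazy diagonalisation. -/

set_option linter.all false

namespace Vale.Agent.P027.N.D

open Vale.Agent.Lib.PolyTime Function Vale.Agent.P027.N.D.Z
open Vale.Agent.P027.N.U (Poly toMv codeP)

theorem growth3 (cg cu : ℕ) : ∃ N₁, ∀ N ≥ N₁,
    (2 * (pb cu N + 40 * 2 ^ (N / (6 * cg + 6)) + 9 * N + 10 +
      pb cg (2 * N + 2 ^ (N / (6 * cg + 6)) + 1)) + 2) ^ 3 ≤ 2 ^ N := by
  have hP : PB fun N => (2 * (pb cu N + 40 + 9 * N + 10 + (2 * N + 4) ^ cg) + 2) ^ 6 := by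
    have h2 : PB fun n : ℕ => n := PB.id
    exact ((((PB.const 2).mul (((((PB.pb cu).add (PB.const 40)).add ((PB.const 9).mul h2)).add
      (PB.const 10)).add ((((PB.const 2).mul h2).add (PB.const 4)).pow cg))).add
      (PB.const 2)).pow 6)
  obtain ⟨N₁, hN₁⟩ := PB_eventually hP
  refine ⟨N₁, fun N hN => ?_⟩
  have h1 := hN₁ N hN
  set a := 2 ^ (N / (6 * cg + 6)) with ha
  have ha1 : 1 ≤ a := Nat.one_le_two_pow
  set B := a ^ (cg + 1) with hB
  have hB1 : 1 ≤ B := Nat.one_le_pow _ _ ha1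
  have haB : a ≤ B := by
    rw [hB, pow_succ]
    exact Nat.le_mul_of_pos_left a (Nat.pos_of_ne_zero (pow_ne_zero _ (by omega)))
  have haB' : a ^ cg ≤ B := Nat.pow_le_pow_right ha1 (Nat.le_succ cg)
  have hBB : B ^ 6 ≤ 2 ^ N := by
    rw [hB, ha, ← pow_mul, ← pow_mul]
    refine Nat.pow_le_pow_right (by norm_num) ?_
    have h3 : N / (6 * cg + 6) * (6 * cg + 6) ≤ N := Nat.div_mul_le_self _ _
    calc N / (6 * cg + 6) * ((cg + 1) * 6) = N / (6 * cg + 6) * (6 * cg + 6) := by ring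
      _ ≤ N := h3
  have h4 : pb cg (2 * N + a + 1) ≤ (2 * N + 4) ^ cg * B := by
    unfold pb
    have h5 : 2 * N + a + 1 + 2 ≤ (2 * N + 4) * a := by nlinarith
    calc (2 * N + a + 1 + 2) ^ cg ≤ ((2 * N + 4) * a) ^ cg := Nat.pow_le_pow_left h5 _
      _ = (2 * N + 4) ^ cg * a ^ cg := mul_pow _ _ _
      _ ≤ _ := Nat.mul_le_mul_left _ haB'
  set P := 2 * (pb cu N + 40 + 9 * N + 10 + (2 * N + 4) ^ cg) + 2 with hPdef
  have h6 : 2 * (pb cu N + 40 * a + 9 * N + 10 + pb cg (2 * N + a + 1)) + 2 ≤ P * B := by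
    have h7 : pb cu N ≤ pb cu N * B := Nat.le_mul_of_pos_right _ hB1
    have h8 : 40 * a ≤ 40 * B := Nat.mul_le_mul_left _ haB
    have h9 : 9 * N ≤ 9 * N * B := Nat.le_mul_of_pos_right _ hB1
    have h10 : P * B = 2 * (pb cu N * B + 40 * B + 9 * N * B + 10 * B + (2 * N + 4) ^ cg * B) +
        2 * B := by rw [hPdef]; ring
    rw [h10]
    omega
  refine (Nat.pow_le_pow_left h6 3).trans ?_
  have h11 : ((P * B) ^ 3) ^ 2 ≤ (2 ^ N) ^ 2 := by
    calc ((P * B) ^ 3) ^ 2 = P ^ 6 * B ^ 6 := by ring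
      _ ≤ 2 ^ N * 2 ^ N := Nat.mul_le_mul h1 hBB
      _ = (2 ^ N) ^ 2 := by ring
  exact (Nat.pow_le_pow_iff_left (by norm_num)).1 h11

/-- the bound on the length of the certificates -/
theorem cert_bound {K k c₀ m n l : ℕ} (hm : m ^ (2 * (c₀ + 1)) ≤ l) (hl : l ≤ (n + 2) ^ c₀)
    (hk : 0 < k) (hn : 2 * (K + 1) * k + 2 * k * k + 4 ≤ n) : K * 2 ^ m ≤ 2 ^ (n / k) := by
  have h4 : m ^ 2 ≤ n + 2 := by
    have h5 : (m ^ 2) ^ (c₀ + 1) ≤ (n + 2) ^ (c₀ + 1) := by
      rw [← pow_mul]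
      exact (hm.trans hl).trans (Nat.pow_le_pow_right (by omega) (Nat.le_succ _))
    exact (Nat.pow_le_pow_iff_left (by omega)).1 h5
  have h6 : (K + m) * k ≤ n := by
    by_cases h7 : m ≤ 2 * k
    · nlinarith
    · push Not at h7
      nlinarith
  have h8 : K + m ≤ n / k := (Nat.le_div_iff_mul_le hk).2 h6
  calc K * 2 ^ m ≤ 2 ^ K * 2 ^ m := Nat.mul_le_mul_right _ (Nat.lt_two_pow_self).le
    _ = 2 ^ (K + m) := (pow_add _ _ _).symm
    _ ≤ _ := Nat.pow_le_pow_right (by norm_num) h8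

theorem XW_length (w : Word) (i : ℕ) : (XW w i).length = 2 * w.length + 1 + i := by
  unfold XW
  rw [length_pr, List.length_replicate]
  omega

/-- **solvability has no certificates of subexponential length** -/
theorem no_short_sat (red : Red Lg) : ∃ c : ℕ, 0 < c ∧ ∀ V : List Bool → List Bool, PolyTime V →
    (∀ F : Poly, (toMv F).totalDegree ≤ 4 → ∀ r, V (pairW (codeP F) r) = [true] → HasZero F) →
    ∀ K : ℕ, ∃ F : Poly, (toMv F).totalDegree ≤ 4 ∧ HasZero F ∧
      ∀ r, V (pairW (codeP F) r) = [true] → ∀ m, m ^ c ≤ (codeP F).length → K * 2 ^ m < r.length := by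
  obtain ⟨f, hf, hd, hfL⟩ := redLZ red
  obtain ⟨T₀, hT₀, hT₁, hfT⟩ := hf.length_le
  obtain ⟨c₀, hc₀⟩ := hT₀.exists_pb
  refine ⟨2 * (c₀ + 1), by omega, fun V hV hsound K => ?_⟩
  by_contra hcon
  push Not at hcon
  rw [polyTime_iff] at hV
  have hg : FP ∅ (fun z : Word => V (pr (codeP (f (fstW z))) (sndW z))) :=
    hV.comp ((hf.comp FP.fst).pair FP.snd)
  obtain ⟨cg, hcg⟩ := Vale.Agent.P027.N.D.E.exists_prog_exp (fp_test hg true false)
  obtain ⟨u, hu, hu'⟩ := Vale.Agent.P027.N.D.E.exists_div (6 * cg + 6)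
  obtain ⟨p, cu, hp⟩ := hcg u hu
  obtain ⟨N₁, hN₁⟩ := growth3 cg cu
  obtain ⟨N₀, hN₀⟩ := exists_table p
  set k := 6 * cg + 6 with hk
  -- the time bound
  set T : ℕ → ℕ := fun n => pb cu n + 40 * 2 ^ (n / k) + 9 * n + 10 +
    pb cg (2 * n + 2 ^ (n / k) + 1) with hT
  set N := max N₀ (max N₁ (2 * (K + 1) * k + 2 * k * k + 4)) with hN
  have hNN₀ : N ≥ N₀ := le_max_left _ _
  have hNN₁ : N₁ ≤ N := (le_max_left _ _).trans (le_max_right _ _)
  have hNK : 2 * (K + 1) * k + 2 * k * k + 4 ≤ N := (le_max_right _ _).trans (le_max_right _ _)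
  obtain ⟨w, num, hw, htab, h0, h1⟩ := hN₀ N hNN₀
  have hw2 : 2 ≤ w.length := by omega
  -- the program
  have hhalt : ∀ X r : Word, HaltsWithin ∅ p X r (T X.length) := by
    intro X r
    obtain ⟨s, ⟨t, ht, he⟩, hs⟩ := hp X r
    rw [hu'] at ht
    exact ⟨t, s, he, ht⟩
  have hacc : ∀ X r : Word, Accepts ∅ p X r ↔
      V (pairW (codeP (f X)) (r.take (2 ^ (X.length / k)))) = [true] := by
    intro X r
    obtain ⟨s, ⟨t, ht, he⟩, hs⟩ := hp X r
    rw [hu', fstW_pr, sndW_pr, ← pairW_eq] at hs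
    constructor
    · rintro ⟨t', s', he', h'⟩
      obtain ⟨-, rfl⟩ := he.det he'
      rw [hs] at h'
      by_contra h5
      rw [if_neg h5] at h'
      simp at h'
    · intro h5
      exact ⟨t, s, he, by rw [hs, if_pos h5]; rfl⟩
  have hV1 : ∀ X r : Word, Accepts ∅ p X r → X ∈ LZ := by
    intro X r h
    rw [hacc] at h
    exact (hfL X).2 (hsound (f X) (hd X) _ h)
  have hV2 : ∀ X : Word, N ≤ X.length → X ∈ LZ →
      ∃ r : Word, r.length ≤ 2 ^ (X.length / k) ∧ Accepts ∅ p X r := by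
    intro X hX hXL
    obtain ⟨r, hr, m, hm, hrm⟩ := hcon (f X) (hd X) ((hfL X).1 hXL)
    have h9 : r.length ≤ 2 ^ (X.length / k) :=
      hrm.trans (cert_bound hm ((hfT X).trans (hc₀ _)) (by omega) (hNK.trans hX))
    exact ⟨r, h9, by rw [hacc, List.take_of_length_le h9]; exact hr⟩
  -- the chain
  have hlen : ∀ i, (XW w i).length = 2 * N + 1 + i := fun i => by rw [XW_length, hw]
  have hfst : ∀ i, fstW (XW w i) = w := fun i => fstW_pr _ _
  have hsnd : ∀ i, (sndW (XW w i)).length = i := fun i => by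
    unfold XW; rw [sndW_pr, List.length_replicate]
  have hA : ∀ i < 2 ^ N, XW w i ∈ LZ ↔ XW w (i + 1) ∈ LZ := by
    intro i hi
    have hVZ : ∀ R, VZ (XW w i) R = acc1 w (XW w (i + 1)) (fstW R) (sndW R).length := by
      intro R
      unfold VZ
      rw [hfst, hsnd, hw]
      simp [hi]
    constructor
    · rintro ⟨R, -, hR⟩
      rw [hVZ] at hR
      exact hV1 _ _ (accepts_of_acc1 htab h0 h1 hw2 (hhalt _ _) hR)
    · intro hX
      obtain ⟨r, hr, hra⟩ := hV2 _ (by rw [hlen]; omega) hX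
      refine ⟨pr r (List.replicate (2 * T (XW w (i + 1)).length + 1) true), ?_, ?_⟩
      · have h3 := hN₁ (XW w (i + 1)).length (by rw [hlen]; omega)
        have h4 : 2 * T (XW w (i + 1)).length + 2 ≤ 2 ^ (XW w (i + 1)).length := by
          refine le_trans ?_ h3
          exact Nat.le_self_pow (by norm_num) _
        have h5 : r.length ≤ 2 ^ (XW w (i + 1)).length :=
          hr.trans (Nat.pow_le_pow_right (by norm_num) (Nat.div_le_self _ _))
        rw [length_pr, List.length_replicate]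
        have h6 : (XW w i).length + 3 = (XW w (i + 1)).length + 2 := by
          rw [hlen, hlen]
          omega
        rw [h6, pow_add]
        omega
      · rw [hVZ, fstW_pr, sndW_pr, List.length_replicate]
        exact acc1_of_accepts htab h0 h1 hw2 (hhalt _ _) hra le_rfl
  have hB : XW w (2 ^ N) ∈ LZ ↔ XW w 0 ∉ LZ := by
    have hVZ : ∀ R, VZ (XW w (2 ^ N)) R = true ↔ 2 ^ (2 ^ N + 1) ≤ R.length ∧
        ∀ j < R.length, (wd j).length ≤ 2 ^ N → acc1 w (XW w 0) (wd j) (2 ^ N) ≠ true := by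
      intro R
      unfold VZ
      rw [hfst, hsnd, hw]
      simp only [lt_irrefl, decide_false, cond_false, Bool.and_eq_true, decide_eq_true_eq,
        List.all_eq_true, List.mem_range, Bool.not_eq_true', Bool.and_eq_false_iff,
        decide_eq_false_iff_not]
      refine and_congr_right fun _ => forall₂_congr fun j _ => ?_
      constructor
      · rintro (h | h) h'
        · exact absurd h' h
        · simp [h]
      · intro h
        by_cases h7 : (wd j).length ≤ 2 ^ N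
        · right
          simpa using h h7
        · exact Or.inl h7
    have h3 : XW w (2 ^ N) ∈ LZ ↔ ∀ r : Word, r.length ≤ 2 ^ N →
        acc1 w (XW w 0) r (2 ^ N) ≠ true := by
      simp only [LZ, Set.mem_setOf_eq, hVZ]
      constructor
      · rintro ⟨R, -, hR1, hR2⟩ r hr
        obtain ⟨j, hj, rfl⟩ := exists_wd r
        refine hR2 j (hj.trans_le (le_trans ?_ hR1)) hr
        exact Nat.pow_le_pow_right (by norm_num) (by omega)
      · intro h
        refine ⟨List.replicate (2 ^ (2 ^ N + 1)) true, ?_, ?_, fun j _ hj => h _ hj⟩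
        · rw [List.length_replicate]
          exact Nat.pow_le_pow_right (by norm_num) (by rw [hlen]; omega)
        · rw [List.length_replicate]
    rw [h3]
    constructor
    · intro h hX
      obtain ⟨r, hr, hra⟩ := hV2 _ (by rw [hlen]; omega) hX
      rw [hlen] at hr
      have h4 : (2 * N + 1 + 0) / k ≤ N := by
        refine (Nat.div_le_div_left (show 3 ≤ k by omega) (by norm_num)).trans ?_
        omega
      refine h r (hr.trans (Nat.pow_le_pow_right (by norm_num) h4)) ?_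
      refine acc1_of_accepts htab h0 h1 hw2 (hhalt _ _) hra ?_
      have h5 := hN₁ (XW w 0).length (by rw [hlen]; omega)
      have h6 : (2 * T (XW w 0).length + 2) ^ 3 ≤ (2 ^ N) ^ 3 := by
        refine h5.trans ?_
        rw [← pow_mul, hlen]
        exact Nat.pow_le_pow_right (by norm_num) (by omega)
      have h7 := (Nat.pow_le_pow_iff_left (by norm_num)).1 h6
      omega
    · intro hX r _ hr
      exact hX (hV1 _ _ (accepts_of_acc1 htab h0 h1 hw2 (hhalt _ _) hr))
  have hC : ∀ i ≤ 2 ^ N, XW w 0 ∈ LZ ↔ XW w i ∈ LZ := by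
    intro i
    induction i with
    | zero => intro _; rfl
    | succ i ih =>
      intro hi
      rw [ih (by omega), hA i (by omega)]
  have h3 := hC _ le_rfl
  rw [hB] at h3
  by_cases h4 : XW w 0 ∈ LZ
  · exact h3.1 h4 h4
  · exact h4 (h3.2 h4)

end Vale.Agent.P027.N.D
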