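import Vale.Agent.P027.H833.D.Red
import Vale.Agent.P027.H847.D.ZakB
import Vale.Agent.P027.H847.D.Time

/-! Hardness in terms of Mathlib's machines, with machines for the reductions. -/

set_option linter.all false

namespace Vale.Agent.P027.N.D

open Vale.Agent.Lib.PolyTime
open Vale.Agent.P027.N.U (Poly toMv codeP)

/-- hardness for nondeterministic exponential time -/
theorem nexp_hard_tm (V : List Bool → List Bool) (q : Polynomial ℕ) (hV : PolyTime V) :
    ∃ f : List Bool → Poly,
      (∃ T : Turing.TM2ComputableInPolyTime (id : List Bool → List Bool) codeP f,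
        ∀ j, Finite (T.tm.Γ j)) ∧
      (∀ x, (toMv (f x)).totalDegree ≤ 4) ∧
      ∀ x, (∃ r : List Bool, r.length ≤ 2 ^ q.eval x.length ∧ V (pairW x r) = [true]) ↔
        HasZero (f x) := by
  obtain ⟨f, hf, hd, hfL⟩ := nexp_hard redLg V hV q
  exact ⟨f, exists_tm2_of_polyTimeFun (id : List Bool → List Bool) codeP f _
    (polyTimeFun_iff.2 hf) (fun a => rfl), hd, hfL⟩

end Vale.Agent.P027.N.D
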