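import Vale.Agent.P027.H847.D.Comp

/-! Tables of arbitrary deterministic stack machines, and of the machine that replaces its input by
a fixed word and then runs a program. -/

set_option linter.all false

namespace Vale.Agent.P027.N.D.G

open Vale.Agent.Lib.PolyTime Function Vale.Agent.P027.N.D.B

section general

variable {σ : Type} (ins : σ → ℕ × (ℕ → ℕ × σ))

/-- one step of a deterministic machine -/
def gstp (a : σ × (ℕ → Word)) : σ × (ℕ → Word) :=
  (((ins a.1).2 (topc (a.2 (ins a.1).1))).2,
    update a.2 (ins a.1).1 (opr ((ins a.1).2 (topc (a.2 (ins a.1).1))).1 (a.2 (ins a.1).1)))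

/-- `w` is the table of the machine, with the states in `R` numbered by `num` -/
structure TabOf (R : Set σ) (num : σ → ℕ) (w : Word) : Prop where
  closed : ∀ q ∈ R, ∀ τ, ((ins q).2 τ).2 ∈ R
  op_lt : ∀ q ∈ R, ∀ τ, ((ins q).2 τ).1 < 4
  inj : Set.InjOn num R
  tab_iff : ∀ c q x, tab w c q x = true ↔
    (∃ a ∈ R, adr c q x = adr 12 (num a) (ins a).1) ∨
    ∃ a ∈ R, ∃ τ < 3, adr c q x = adr (4 * τ + ((ins a).2 τ).1) (num a) (num ((ins a).2 τ).2)

variable {ins} {R : Set σ} {num : σ → ℕ} {w : Word} (h : TabOf ins R num w)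

include h

theorem tab_stack {a : σ} (ha : a ∈ R) (k : ℕ) :
    tab w 12 (num a) k = true ↔ k = (ins a).1 := by
  rw [h.tab_iff]
  constructor
  · rintro (⟨b, hb, e⟩ | ⟨b, hb, τ, hτ, e⟩)
    · obtain ⟨-, e1, e2⟩ := adr_inj (by norm_num) (by norm_num) e
      rw [h.inj ha hb e1]
      exact e2
    · have := h.op_lt b hb τ
      obtain ⟨e0, -, -⟩ := adr_inj (by norm_num) (by omega) e
      omega
  · rintro rfl
    exact Or.inl ⟨a, ha, rfl⟩

theorem tab_next {a : σ} (ha : a ∈ R) {τ o : ℕ} (hτ : τ < 3) (ho : o < 4) (x : ℕ) :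
    tab w (4 * τ + o) (num a) x = true ↔ o = ((ins a).2 τ).1 ∧ x = num ((ins a).2 τ).2 := by
  rw [h.tab_iff]
  constructor
  · rintro (⟨b, hb, e⟩ | ⟨b, hb, τ', hτ', e⟩)
    · obtain ⟨e0, -, -⟩ := adr_inj (by omega) (by norm_num) e
      omega
    · have := h.op_lt b hb τ'
      obtain ⟨e0, e1, e2⟩ := adr_inj (by omega) (by omega) e
      obtain rfl := h.inj ha hb e1
      obtain rfl : τ = τ' := by omega
      exact ⟨by omega, e2⟩
  · rintro ⟨rfl, rfl⟩
    exact Or.inr ⟨a, ha, τ, hτ, rfl⟩

theorem stW_iff {a : σ} (ha : a ∈ R) (s : ℕ → Word) (c' : ℕ × (ℕ → Word)) :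
    StW w (num a, s) c' ↔ c' = (num (gstp ins (a, s)).1, (gstp ins (a, s)).2) := by
  constructor
  · rintro ⟨k, o, ho, e1, e2, e3⟩
    obtain rfl := (tab_stack h ha k).1 e1
    obtain ⟨rfl, e4⟩ := (tab_next h ha (topc_lt _) ho _).1 e2
    exact Prod.ext e4 e3
  · rintro rfl
    refine ⟨(ins a).1, ((ins a).2 (topc (s (ins a).1))).1, h.op_lt _ ha _, ?_, ?_, rfl⟩
    · exact (tab_stack h ha _).2 rfl
    · exact (tab_next h ha (topc_lt _) (h.op_lt _ ha _) _).2 ⟨rfl, rfl⟩

theorem iterate_mem {a : σ × (ℕ → Word)} (ha : a.1 ∈ R) (n : ℕ) : ((gstp ins)^[n] a).1 ∈ R := by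
  induction n with
  | zero => exact ha
  | succ n ih =>
    rw [iterate_succ_apply']
    exact h.closed _ ih _

theorem accW_iff {a₀ a₁ : σ} (ha₀ : a₀ ∈ R) (ha₁ : a₁ ∈ R) (h0 : num a₀ = 0) (h1 : num a₁ = 1)
    (s : ℕ → Word) (m : ℕ) : AccW w s m ↔ ((gstp ins)^[m] (a₀, s)).1 = a₁ := by
  constructor
  · rintro ⟨g, g0, gs, gm⟩
    have key : ∀ i ≤ m, g i = (num ((gstp ins)^[i] (a₀, s)).1, ((gstp ins)^[i] (a₀, s)).2) := by
      intro i
      induction i with
      | zero => intro _; rw [g0, iterate_zero, id_eq, h0]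
      | succ i ih =>
        intro hi
        have h2 := gs i (by omega)
        rw [ih (by omega), stW_iff h (iterate_mem h ha₀ i)] at h2
        rw [h2, iterate_succ_apply']
    rw [key m le_rfl, ← h1] at gm
    exact h.inj (iterate_mem h ha₀ m) ha₁ gm
  · intro he
    refine ⟨fun i => (num ((gstp ins)^[i] (a₀, s)).1, ((gstp ins)^[i] (a₀, s)).2), ?_, ?_, ?_⟩
    · simp [h0]
    · intro i _
      rw [stW_iff h (iterate_mem h ha₀ i)]
      beta_reduce
      rw [iterate_succ_apply']
    · show num _ = 1
      rw [he, h1]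

end general

/-! ### Replacing the input -/

/-- states: clear stack 0, push the bits of the new input, run the program -/
inductive S2 : Type
  | clr
  | psh (i : ℕ)
  | old (s : S)

/-- the operation that pushes a bit -/
def pbit (b : Bool) : ℕ := if b then 2 else 1

/-- instructions of the machine that replaces its input by `x` and runs `p` -/
def ins2 (x : Word) (p : Prog) : S2 → ℕ × (ℕ → ℕ × S2)
  | .clr => (0, fun τ => if τ = 0 then (0, .psh 0) else (3, .clr))
  | .psh i => (0, fun _ => if i < x.length then (pbit (x.getD (x.length - 1 - i) false), .psh (i + 1))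
      else (0, .old (.run [p])))
  | .old s => ((instr s).1, fun τ => (((instr s).2 τ).1, .old ((instr s).2 τ).2))

variable {x : Word} {p : Prog}

theorem run_clr (s : ℕ → Word) :
    (gstp (ins2 x p))^[(s 0).length + 1] (.clr, s) = (.psh 0, update s 0 []) := by
  generalize hw : s 0 = w
  induction w generalizing s with
  | nil =>
    have e : update s 0 [] = s := by rw [← hw]; exact update_eq_self _ _
    rw [e]
    simp only [List.length_nil, zero_add, iterate_one, gstp, ins2, hw, topc, if_true]
    rw [show opr 0 ([] : Word) = [] from rfl, e]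
  | cons b w ih =>
    have h1 : gstp (ins2 x p) (.clr, s) = (.clr, update s 0 w) := by
      have h2 : topc (b :: w) ≠ 0 := by cases b <;> simp [topc]
      simp only [gstp, ins2, hw, if_neg h2]
      rw [show opr 3 (b :: w) = w from rfl]
    rw [List.length_cons, iterate_succ_apply, h1, ih (update s 0 w) (by simp)]
    simp

theorem run_psh (s : ℕ → Word) (hs : s 0 = []) : ∀ i ≤ x.length,
    (gstp (ins2 x p))^[i] (.psh 0, s) = (.psh i, update s 0 (x.drop (x.length - i))) := by
  intro i
  induction i with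
  | zero =>
    intro _
    have e : update s 0 [] = s := by rw [← hs]; exact update_eq_self _ _
    simp [e]
  | succ i ih =>
    intro hi
    rw [iterate_succ_apply', ih (by omega)]
    have h1 : x.drop (x.length - (i + 1)) =
        x.getD (x.length - 1 - i) false :: x.drop (x.length - i) := by
      have h2 : x.length - (i + 1) < x.length := by omega
      rw [List.drop_eq_getElem_cons h2]
      have h3 : x.length - (i + 1) + 1 = x.length - i := by omega
      have h4 : x.length - 1 - i = x.length - (i + 1) := by omega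
      rw [h3, h4, List.getD_eq_getElem _ _ h2]
    simp only [gstp, ins2, update_self, update_idem, if_pos (show i < x.length by omega)]
    rw [h1]
    have h5 : ∀ (b : Bool) (l : Word), opr (pbit b) l = b :: l := by
      intro b l; cases b <;> rfl
    rw [h5]

theorem run_old (a : S × (ℕ → Word)) (n : ℕ) : (gstp (ins2 x p))^[n] (.old a.1, a.2) =
    (.old (stp^[n] a).1, (stp^[n] a).2) := by
  induction n with
  | zero => rfl
  | succ n ih =>
    rw [iterate_succ_apply', ih, iterate_succ_apply']
    rfl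

/-- the whole run -/
theorem run_all {s s' : ℕ → Word} {t m : ℕ} (he : Eval ∅ p (update s 0 x) t s')
    (hm : 2 * t + 1 + ((s 0).length + 1 + (x.length + 1)) ≤ m) :
    ((gstp (ins2 x p))^[m] (.clr, s)).1 = .old .acc ↔ (s' 0).head? = some true := by
  obtain ⟨k, rfl⟩ : ∃ k, m = k + (1 + (x.length + ((s 0).length + 1))) :=
    ⟨m - (1 + (x.length + ((s 0).length + 1))), by omega⟩
  rw [iterate_add_apply, iterate_add_apply, iterate_add_apply, run_clr,
    run_psh _ (by simp) _ le_rfl]
  have h1 : (gstp (ins2 x p))^[1] (.psh x.length,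
      update (update s 0 []) 0 (x.drop (x.length - x.length))) =
      (.old (.run [p]), update s 0 x) := by
    simp [gstp, ins2, opr]
  rw [h1, run_old (.run [p], update s 0 x) k]
  have h2 := sim_full he (show 2 * t + 1 ≤ k by omega)
  rw [← h2]
  constructor
  · intro h3
    exact S2.old.inj h3
  · intro h3
    rw [h3]

end Vale.Agent.P027.N.D.G
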