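import Vale.Agent.P027.H847.D.GTab
import Vale.Agent.Lib.PolyTime.Lists2
import Vale.Agent.Lib.PolyTime.Bitwise
import Vale.Agent.Lib.PolyTime.Official

/-! The table of the machine that replaces its input by a given word and then runs a fixed program
can be computed in polynomial time. -/

set_option linter.all false

namespace Vale.Agent.P027.N.D.G

open Vale.Agent.Lib.PolyTime Function Vale.Agent.P027.N.D.B

/-! ### The numbers of the states -/

theorem exists_numo (p : Prog) : ∃ (numo : S → ℕ) (B : ℕ), numo .acc = 1 ∧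
    (∀ q ∈ RS p, 1 ≤ numo q ∧ numo q ≤ B) ∧ Set.InjOn numo (RS p) := by
  obtain ⟨num, h0, h1, h2, hinj⟩ := exists_num p
  obtain ⟨B, hB⟩ := ((RS_finite p).image
    (fun q => if num q = 0 then 3 else if num q ≤ 2 then num q else num q + 1)).bddAbove
  refine ⟨fun q => if num q = 0 then 3 else if num q ≤ 2 then num q else num q + 1, B, ?_,
    fun q hq => ⟨?_, hB ⟨q, hq, rfl⟩⟩, fun a ha b hb hab => hinj ha hb ?_⟩
  · simp [h1]
  · beta_reduce
    split_ifs <;> omega
  · beta_reduce at hab
    split_ifs at hab <;> omega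

/-- the numbers of the states of the combined machine -/
def num2 (numo : S → ℕ) (B : ℕ) : S2 → ℕ
  | .clr => 0
  | .psh i => B + 1 + i
  | .old s => numo s

/-- the states of the combined machine -/
def R2 (x : Word) (p : Prog) : Set S2 := fun q => match q with
  | .clr => True
  | .psh i => i ≤ x.length
  | .old s => s ∈ RS p

theorem mem_R2_clr {x : Word} {p : Prog} : S2.clr ∈ R2 x p := trivial
theorem mem_R2_psh {x : Word} {p : Prog} {i : ℕ} : S2.psh i ∈ R2 x p ↔ i ≤ x.length := Iff.rfl
theorem mem_R2_old {x : Word} {p : Prog} {s : S} : S2.old s ∈ R2 x p ↔ s ∈ RS p := Iff.rfl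

theorem run_mem_RS (p : Prog) : S.run [p] ∈ RS p :=
  Or.inr ⟨[p], Or.inr (ToTM2.self_mem_reach _ _), rfl⟩

theorem R2_closed (x : Word) (p : Prog) : ∀ q ∈ R2 x p, ∀ τ, ((ins2 x p q).2 τ).2 ∈ R2 x p := by
  intro q hq τ
  cases q with
  | clr =>
    simp only [ins2]
    split_ifs
    · exact Nat.zero_le _
    · trivial
  | psh i =>
    simp only [ins2]
    split_ifs with h
    · exact h
    · exact run_mem_RS p
  | old s => exact RS_closed hq τ

theorem R2_op (x : Word) (p : Prog) : ∀ q ∈ R2 x p, ∀ τ, ((ins2 x p q).2 τ).1 < 4 := by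
  intro q hq τ
  cases q with
  | clr =>
    simp only [ins2]
    split_ifs <;> norm_num
  | psh i =>
    simp only [ins2]
    split_ifs with h
    · unfold pbit; split_ifs <;> norm_num
    · norm_num
  | old s => exact instr_op_lt s τ

theorem R2_inj {x : Word} {p : Prog} {numo : S → ℕ} {B : ℕ}
    (hB : ∀ q ∈ RS p, 1 ≤ numo q ∧ numo q ≤ B) (hinj : Set.InjOn numo (RS p)) :
    Set.InjOn (num2 numo B) (R2 x p) := by
  intro a ha b hb hab
  cases a with
  | clr =>
    cases b with
    | clr => rfl
    | psh i => simp only [num2] at hab; omega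
    | old s => have := hB s hb; simp only [num2] at hab; omega
  | psh i =>
    cases b with
    | clr => simp only [num2] at hab; omega
    | psh j => simp only [num2] at hab; rw [show i = j by omega]
    | old s => have := hB s hb; simp only [num2] at hab; omega
  | old s =>
    cases b with
    | clr => have := hB s ha; simp only [num2] at hab; omega
    | psh j => have := hB s ha; simp only [num2] at hab; omega
    | old t => simp only [num2] at hab; rw [hinj ha hb hab]

/-! ### The table -/

/-- operation in the pushing state number `i` -/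
def opi (x : Word) (i : ℕ) : ℕ :=
  if i < x.length then pbit (x.getD (x.length - 1 - i) false) else 0

/-- next state of the pushing state number `i` -/
def nxi (B s₀ : ℕ) (x : Word) (i : ℕ) : ℕ := if i < x.length then B + 1 + (i + 1) else s₀

/-- membership in the set of addresses -/
def tst (F : List ℕ) (B s₀ : ℕ) (x : Word) (a : ℕ) : Bool :=
  F.any (fun b => decide (a = b)) || (List.range (x.length + 1)).any fun i =>
    decide (a = adr 12 (B + 1 + i) 0) ||
      (List.range 3).any fun τ => decide (a = adr (4 * τ + opi x i) (B + 1 + i) (nxi B s₀ x i))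

theorem adr_pt {α : Type} [Enc α] {c q y : α → ℕ} (hc : PT ∅ c) (hq : PT ∅ q) (hy : PT ∅ y) :
    PT ∅ (fun a => adr (c a) (q a) (y a)) := by
  have h1 : PT ∅ (fun a => q a + (16 * y a + c a)) :=
    PT.add hq (PT.add (PT.mul (PT.const 16) hy) hc)
  exact PT.add (PT.mul h1 h1) hq

theorem tst_pt (F : List ℕ) (B s₀ : ℕ) {α : Type} [Enc α] {x : α → Raw} {a : α → ℕ}
    (hx : PT ∅ x) (ha : PT ∅ a) : PT ∅ (fun z => tst F B s₀ (x z).w (a z)) := by
  have hlen : PT ∅ (fun z => (x z).w.length) := PT.rawLength hx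
  have h1 : PT ∅ (fun z => F.any (fun b => decide (a z = b))) :=
    PT.any (l := fun _ => F) (f := fun z b => decide (a z = b)) (PT.const F)
      (PT.eqNat (ha.comp PT.fst') PT.snd')
  refine PT.or h1 ?_
  -- the pushing states
  have hx1 : PT ∅ (fun z : α × ℕ => x z.1) := hx.comp PT.fst'
  have hl1 : PT ∅ (fun z : α × ℕ => (x z.1).w.length) := hlen.comp PT.fst'
  have ho1 : PT ∅ (fun z : α × ℕ => opi (x z.1).w z.2) := by
    have h2 : PT ∅ (fun z : α × ℕ => (x z.1).w.getD ((x z.1).w.length - 1 - z.2) false) :=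
      PT.rawGetD hx1 (PT.sub (PT.sub hl1 (PT.const 1)) PT.snd')
    have h3 : PT ∅ (fun z : α × ℕ => pbit ((x z.1).w.getD ((x z.1).w.length - 1 - z.2) false)) :=
      (h2.cond (PT.const 2) (PT.const 1)).congr fun z => by
        cases (x z.1).w.getD ((x z.1).w.length - 1 - z.2) false <;> rfl
    exact PT.ite (PT.lt PT.snd' hl1) h3 (PT.const 0)
  have hn1 : PT ∅ (fun z : α × ℕ => nxi B s₀ (x z.1).w z.2) :=
    PT.ite (PT.lt PT.snd' hl1) (PT.add (PT.const (B + 1)) (PT.add PT.snd' (PT.const 1)))
      (PT.const s₀)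
  have hq1 : PT ∅ (fun z : α × ℕ => B + 1 + z.2) := PT.add (PT.const (B + 1)) PT.snd'
  have ha1 : PT ∅ (fun z : α × ℕ => a z.1) := ha.comp PT.fst'
  have h4 : PT ∅ (fun z : α × ℕ => decide (a z.1 = adr 12 (B + 1 + z.2) 0)) :=
    PT.eqNat ha1 (adr_pt (PT.const 12) hq1 (PT.const 0))
  have h5 : PT ∅ (fun z : α × ℕ => (List.range 3).any fun τ =>
      decide (a z.1 = adr (4 * τ + opi (x z.1).w z.2) (B + 1 + z.2) (nxi B s₀ (x z.1).w z.2))) := by
    refine PT.any (l := fun _ : α × ℕ => List.range 3) (f := fun z τ =>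
      decide (a z.1 = adr (4 * τ + opi (x z.1).w z.2) (B + 1 + z.2) (nxi B s₀ (x z.1).w z.2)))
      (PT.const _) ?_
    exact PT.eqNat (ha1.comp PT.fst') (adr_pt (PT.add (PT.mul (PT.const 4) PT.snd')
      (ho1.comp PT.fst')) (hq1.comp PT.fst') (hn1.comp PT.fst'))
  refine PT.any (l := fun z => List.range ((x z).w.length + 1)) (f := fun z i =>
    decide (a z = adr 12 (B + 1 + i) 0) || (List.range 3).any fun τ =>
      decide (a z = adr (4 * τ + opi (x z).w i) (B + 1 + i) (nxi B s₀ (x z).w i))) ?_ (PT.or h4 h5)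
  refine PT.range (PT.add hlen (PT.const 1)) ?_
  have h6 : PBd (fun z => (x z).w.length) := hx.pbd.mono fun z => le_rfl
  exact h6.add (PBd.const 1)

/-- evaluation of a polynomial at the length -/
theorem poly_pt (q : Polynomial ℕ) : PT ∅ (fun r : Raw => q.eval r.w.length) ∧
    PBd (fun r : Raw => q.eval r.w.length) := by
  obtain ⟨u, hu, hu'⟩ := FP.unary (A := ∅) FP.id q
  constructor
  · have h1 : PT ∅ (fun r : Raw => Raw.mk (u r.w)) := ⟨u, hu, fun r => rfl⟩
    exact (PT.rawLength h1).congr fun r => hu' r.w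
  · exact PBd.of_PB (PB.of_polynomial q)

theorem adr_le {c q y Q : ℕ} (hc : c ≤ 12) (hq : q ≤ Q) (hy : y ≤ Q) :
    adr c q y < (17 * Q + 13) ^ 2 := by
  unfold adr
  have h1 : q + (16 * y + c) ≤ 17 * Q + 12 := by omega
  have h2 := Nat.mul_le_mul h1 h1
  nlinarith

/-- **hard-wiring**: the table of the machine that replaces its input by `x` and runs `p` -/
theorem hardwire (p : Prog) {E : ℕ → ℕ} (hE : PB E) : ∃ W : Word → Word, FP ∅ W ∧
    (∀ x, E x.length ≤ (W x).length) ∧ ∀ (x r : Word) (s' : ℕ → Word) (t m : ℕ),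
      Eval ∅ p (start x r) t s' → 2 * t + 1 + ((W x).length + 1 + (x.length + 1)) ≤ m →
      (AccW (W x) (start (W x) r) m ↔ (s' 0).head? = some true) := by
  classical
  obtain ⟨numo, B, hacc, hB, hinj⟩ := exists_numo p
  let AD : Set ℕ := ((fun a => adr 12 (numo a) (instr a).1) '' RS p) ∪
    ((fun z : S × ℕ => adr (4 * z.2 + ((instr z.1).2 z.2).1) (numo z.1)
      (numo ((instr z.1).2 z.2).2)) '' (RS p ×ˢ Set.Iio 3))
  have hfin : AD.Finite :=
    ((RS_finite p).image _).union (((RS_finite p).prod (Set.finite_Iio 3)).image _)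
  set s₀ := numo (.run [p]) with hs₀
  set F : List ℕ := hfin.toFinset.toList ++ [adr 12 0 0, adr 0 0 (B + 1), adr 7 0 0, adr 11 0 0]
    with hF
  have hFmem : ∀ a, a ∈ F ↔ a ∈ AD ∨ a = adr 12 0 0 ∨ a = adr 0 0 (B + 1) ∨ a = adr 7 0 0 ∨
      a = adr 11 0 0 := by
    intro a
    rw [hF, List.mem_append, Finset.mem_toList, Set.Finite.mem_toFinset]
    simp
  have hs₀B : s₀ ≤ B := (hB _ (run_mem_RS p)).2
  -- the length
  have hPB : PB fun n => F.sum + 1 + (17 * (B + 2 + n) + 13) ^ 2 + E n := by
    have h2 : PB fun n : ℕ => n := PB.id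
    exact ((((PB.const F.sum).add (PB.const 1)).add ((((PB.const 17).mul ((PB.const (B + 2)).add
      h2)).add (PB.const 13)).pow 2)).add hE)
  obtain ⟨q, hq⟩ := hPB.exists_polynomial
  have htstF : ∀ x a, tst F B s₀ x a = true ↔ a ∈ F ∨ ∃ i ≤ x.length,
      a = adr 12 (B + 1 + i) 0 ∨ ∃ τ < 3, a = adr (4 * τ + opi x i) (B + 1 + i) (nxi B s₀ x i) := by
    intro x a
    simp only [tst, Bool.or_eq_true, List.any_eq_true, decide_eq_true_eq, List.mem_range,
      Nat.lt_succ_iff]
    refine or_congr ⟨?_, fun h => ⟨a, h, rfl⟩⟩ Iff.rfl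
    rintro ⟨b, hb, rfl⟩
    exact hb
  have hop : ∀ x i, opi x i ≤ 2 := by
    intro x i
    unfold opi pbit
    split_ifs <;> norm_num
  have htst_lt : ∀ x a, tst F B s₀ x a = true → a < q.eval x.length := by
    intro x a h
    have h0 := hq x.length
    rcases (htstF x a).1 h with h1 | ⟨i, hi, h1 | ⟨τ, hτ, h1⟩⟩
    · have h2 : a ≤ F.sum := List.single_le_sum (fun _ _ => Nat.zero_le _) _ h1
      omega
    · have h2 := adr_le (c := 12) (q := B + 1 + i) (y := 0) (Q := B + 2 + x.length) le_rfl
        (by omega) (by omega)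
      omega
    · have h4 := hop x i
      have h5 : nxi B s₀ x i ≤ B + 2 + x.length := by
        unfold nxi
        split_ifs <;> omega
      have h2 := adr_le (c := 4 * τ + opi x i) (q := B + 1 + i) (y := nxi B s₀ x i)
        (Q := B + 2 + x.length) (by omega) (by omega) h5
      omega
  let W : Word → Word := fun x => (List.range (q.eval x.length)).map fun a => tst F B s₀ x a
  have hWl : ∀ x, (W x).length = q.eval x.length := fun x => by simp [W]
  have hWtab : ∀ x c y z, tab (W x) c y z = true ↔ tst F B s₀ x (adr c y z) = true := by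
    intro x c y z
    unfold tab
    rw [List.getD_eq_getElem?_getD, List.getElem?_map]
    by_cases h4 : adr c y z < q.eval x.length
    · rw [List.getElem?_range h4]
      simp
    · rw [List.getElem?_eq_none (by simpa using h4)]
      constructor
      · intro h; simp at h
      · intro h; exact absurd (htst_lt x _ h) h4
  refine ⟨W, ?_, fun x => ?_, ?_⟩
  · -- the table is computed in polynomial time
    obtain ⟨hq1, hq2⟩ := poly_pt q
    have h1 : PT ∅ (fun r : Raw => Raw.mk (W r.w)) := by
      refine PT.rawOfList ?_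
      exact PT.map (l := fun r : Raw => List.range (q.eval r.w.length))
        (f := fun r a => tst F B s₀ r.w a) (PT.range hq1 hq2) (tst_pt F B s₀ PT.fst' PT.snd')
    obtain ⟨G, hG, hG'⟩ := h1
    have h2 : G = W := by
      funext x
      exact hG' (Raw.mk x)
    rwa [h2] at hG
  · rw [hWl]
    have := hq x.length
    omega
  · intro x r s' t m he hm
    have hT : TabOf (ins2 x p) (R2 x p) (num2 numo B) (W x) := by
      refine ⟨R2_closed x p, R2_op x p, R2_inj hB hinj, fun c y z => ?_⟩
      rw [hWtab, htstF, hFmem]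
      constructor
      · rintro ((h | h) | h)
        · rcases h with ⟨a, ha, e⟩ | ⟨⟨a, τ⟩, ⟨ha, hτ⟩, e⟩
          · exact Or.inl ⟨.old a, ha, e.symm⟩
          · exact Or.inr ⟨.old a, ha, τ, hτ, e.symm⟩
        · rcases h with h | h | h | h
          · exact Or.inl ⟨.clr, mem_R2_clr, h⟩
          · exact Or.inr ⟨.clr, mem_R2_clr, 0, by norm_num, h⟩
          · exact Or.inr ⟨.clr, mem_R2_clr, 1, by norm_num, h⟩
          · exact Or.inr ⟨.clr, mem_R2_clr, 2, by norm_num, h⟩
        · obtain ⟨i, hi, h | ⟨τ, hτ, h⟩⟩ := h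
          · exact Or.inl ⟨.psh i, hi, h⟩
          · refine Or.inr ⟨.psh i, hi, τ, hτ, ?_⟩
            rw [h]
            simp only [ins2, opi, nxi, num2]
            split_ifs <;> rfl
      · rintro (⟨a, ha, e⟩ | ⟨a, ha, τ, hτ, e⟩)
        · cases a with
          | clr => exact Or.inl (Or.inr (Or.inl e))
          | psh i => exact Or.inr ⟨i, ha, Or.inl e⟩
          | old s => exact Or.inl (Or.inl (Or.inl ⟨s, ha, e.symm⟩))
        · cases a with
          | clr =>
            refine Or.inl (Or.inr ?_)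
            interval_cases τ
            · exact Or.inr (Or.inl e)
            · exact Or.inr (Or.inr (Or.inl e))
            · exact Or.inr (Or.inr (Or.inr e))
          | psh i =>
            refine Or.inr ⟨i, ha, Or.inr ⟨τ, hτ, ?_⟩⟩
            rw [e]
            simp only [ins2, opi, nxi, num2]
            split_ifs <;> rfl
          | old s => exact Or.inl (Or.inl (Or.inr ⟨(s, τ), ⟨ha, hτ⟩, e.symm⟩))
    rw [accW_iff hT (a₀ := .clr) (a₁ := .old .acc) mem_R2_clr (Or.inl (Or.inl rfl)) rfl hacc]
    have hst : update (start (W x) r) 0 x = start x r := by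
      funext i
      rcases eq_or_ne i 0 with rfl | hi
      · simp [start]
      · rw [update_of_ne hi, start_apply, start_apply, if_neg hi, if_neg hi]
    have h0 : start (W x) r 0 = W x := by simp [start]
    refine run_all (by rw [hst]; exact he) ?_
    rw [h0]
    exact hm

end Vale.Agent.P027.N.D.G
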