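import Vale.Agent.P027.H847.D.Hard
import Vale.Agent.P027.H847.D.Exp
import Vale.Agent.P027.H847.D.Diag

/-! Languages with exponentially long certificates reduce to Hilbert's tenth problem over `ℚ`. -/

set_option linter.all false

namespace Vale.Agent.P027.N.D

open Vale.Agent.Lib.PolyTime Function
open Vale.Agent.P027.N.U (Poly toMv codeP)

theorem time_bound (cu cg a n M : ℕ)
    (hM : (n + 2) * cu + (a + 6) + (n + 5) + (2 * n + 4 + a) * cg + 2 + n + 10 ≤ M) :
    2 * (pb cu n + 40 * 2 ^ a + 9 * n + 10 + pb cg (2 * n + 2 ^ a + 1)) + 1 +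
      (M + 1 + (n + 1)) ≤ 2 ^ M - 1 := by
  set e₁ := (n + 2) * cu with he₁
  set e₂ := a + 6 with he₂
  set e₃ := n + 5 with he₃
  set e₄ := (2 * n + 4 + a) * cg with he₄
  have hp : ∀ a b : ℕ, a ≤ b → 2 ^ a ≤ 2 ^ b := fun a b h => Nat.pow_le_pow_right (by norm_num) h
  have h1 : pb cu n ≤ 2 ^ e₁ := by
    unfold pb
    rw [he₁, pow_mul]
    exact Nat.pow_le_pow_left (Nat.lt_two_pow_self).le _
  have h2 : 40 * 2 ^ a ≤ 2 ^ e₂ := by
    rw [he₂, pow_add]
    have : 40 ≤ 2 ^ 6 := by norm_num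
    nlinarith [Nat.one_le_two_pow (n := a)]
  have h3 : 9 * n + 10 ≤ 2 ^ e₃ := by
    rw [he₃, pow_add]
    have : n < 2 ^ n := Nat.lt_two_pow_self
    have h3' : 1 ≤ 2 ^ n := Nat.one_le_two_pow
    norm_num
    omega
  have h4 : pb cg (2 * n + 2 ^ a + 1) ≤ 2 ^ e₄ := by
    unfold pb
    rw [he₄, pow_mul]
    refine Nat.pow_le_pow_left ?_ _
    have h5 : 2 * n + 3 < 2 ^ (2 * n + 3) := Nat.lt_two_pow_self
    have h6 : 1 ≤ 2 ^ a := Nat.one_le_two_pow
    have h7 : 2 ^ (2 * n + 4 + a) = 2 * (2 ^ (2 * n + 3) * 2 ^ a) := by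
      rw [← pow_add, ← pow_succ']
      congr 1
      ring
    rw [h7]
    nlinarith
  have h5 : 2 ^ e₁ ≤ 2 ^ (e₁ + e₂ + e₃ + e₄) := hp _ _ (by omega)
  have h6 : 2 ^ e₂ ≤ 2 ^ (e₁ + e₂ + e₃ + e₄) := hp _ _ (by omega)
  have h7 : 2 ^ e₃ ≤ 2 ^ (e₁ + e₂ + e₃ + e₄) := hp _ _ (by omega)
  have h8 : 2 ^ e₄ ≤ 2 ^ (e₁ + e₂ + e₃ + e₄) := hp _ _ (by omega)
  have h9 : 4 * 2 ^ (e₁ + e₂ + e₃ + e₄) = 2 ^ (e₁ + e₂ + e₃ + e₄ + 2) := by
    rw [pow_add]; norm_num; ring
  have h10 : 2 ^ (e₁ + e₂ + e₃ + e₄ + 2) * 2 ≤ 2 ^ (M - 2) := by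
    rw [← pow_succ]
    exact hp _ _ (by omega)
  have h11 : M - 2 < 2 ^ (M - 2) := Nat.lt_two_pow_self
  have h12 : 2 ^ M = 4 * 2 ^ (M - 2) := by
    conv_lhs => rw [show M = 2 + (M - 2) by omega, pow_add]
    norm_num
  omega

/-- languages with exponentially long certificates, checked in polynomial time (in the length of
the input and the certificate), reduce to the diagonal language, hence to polynomials -/
theorem red_cert (red : Red Lg) {g : Word → Word} (hg : FP ∅ g) (q : Polynomial ℕ) :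
    Red {x | ∃ r : Word, r.length ≤ 2 ^ (q.eval x.length) ∧ (g (pr x r)).head? = some true} := by
  obtain ⟨cg, hcg⟩ := Vale.Agent.P027.N.D.E.exists_prog_exp hg
  obtain ⟨u, hu, hu'⟩ := FP.unary (A := ∅) FP.id q
  obtain ⟨p, cu, hp⟩ := hcg u hu
  have hE : PB fun n => (n + 2) * cu + (q.eval n + 6) + (n + 5) + (2 * n + 4 + q.eval n) * cg + 2 +
      n + 10 := by
    have h2 : PB fun n : ℕ => n := PB.id
    have h3 : PB fun n : ℕ => q.eval n := PB.of_polynomial q
    exact (((((((h2.add (PB.const 2)).mul (PB.const cu)).add (h3.add (PB.const 6))).add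
      (h2.add (PB.const 5))).add (((((PB.const 2).mul h2).add (PB.const 4)).add h3).mul
      (PB.const cg))).add (PB.const 2)).add h2).add (PB.const 10)
  obtain ⟨W, hW, hWE, hWacc⟩ := G.hardwire p hE
  obtain ⟨f, hf, hd, hfL⟩ := red
  refine ⟨fun x => f (W x), hf.comp hW, fun x => hd _, fun x => ?_⟩
  rw [← hfL (W x)]
  have hbound := time_bound cu cg (q.eval x.length) x.length (W x).length (hWE x)
  have key : ∀ r, AccW (W x) (start (W x) r) (2 ^ (W x).length - 1) ↔
      (g (pr x (r.take (2 ^ (q.eval x.length))))).head? = some true := by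
    intro r
    obtain ⟨s, ⟨t, ht, he⟩, hs⟩ := hp x r
    rw [hu'] at ht hs
    rw [hWacc x r s t _ he (by omega), hs]
  have hk : q.eval x.length ≤ (W x).length := by
    have := hWE x
    omega
  simp only [Lg, Set.mem_setOf_eq, key]
  constructor
  · rintro ⟨r, hr, h⟩
    exact ⟨r, hr.trans (Nat.pow_le_pow_right (by norm_num) hk),
      by rw [List.take_of_length_le hr]; exact h⟩
  · rintro ⟨r, hr, h⟩
    exact ⟨r.take (2 ^ (q.eval x.length)), by rw [List.length_take]; exact min_le_left _ _, h⟩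

/-- **NEXP-hardness** in terms of Mathlib's machines: for every polynomial time computable checker,
the words with an accepted certificate of length at most `2 ^ q(n)` reduce in polynomial time to
the polynomials of degree at most four with a rational zero. -/
theorem nexp_hard (red : Red Lg) (V : List Bool → List Bool) (hV : PolyTime V)
    (q : Polynomial ℕ) :
    Red {x | ∃ r : List Bool, r.length ≤ 2 ^ (q.eval x.length) ∧ V (pairW x r) = [true]} := by
  rw [polyTime_iff] at hV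
  obtain ⟨f, hf, hd, hfL⟩ := red_cert red (fp_test hV true false) q
  refine ⟨f, hf, hd, fun x => ?_⟩
  rw [← hfL x]
  simp only [Set.mem_setOf_eq, pairW_eq]
  refine exists_congr fun r => and_congr_right fun _ => ?_
  by_cases h1 : V (pr x r) = [true] <;> simp [h1]

end Vale.Agent.P027.N.D
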