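import Vale.Agent.P027.H847.D.Exp
import Vale.Agent.P027.H847.D.Diag

/-! Subexponential lower bounds: unsolvability over `ℚ` has no short certificates. -/

set_option linter.all false

namespace Vale.Agent.P027.N.D

open Vale.Agent.Lib.PolyTime Function
open Vale.Agent.P027.N.U (Poly toMv codeP)

theorem PB_eventually {P : ℕ → ℕ} (hP : PB P) : ∃ N₀, ∀ N ≥ N₀, P N ≤ 2 ^ N := by
  obtain ⟨c, hc⟩ := hP
  have h1 : Filter.Tendsto (fun n : ℕ => (n : ℝ) ^ c / (2 : ℝ) ^ n) Filter.atTop (nhds 0) :=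
    tendsto_pow_const_div_const_pow_of_one_lt c (by norm_num)
  obtain ⟨N₀, h2⟩ := Filter.eventually_atTop.1
    (h1.eventually (gt_mem_nhds (show (0 : ℝ) < 1 / 4 by norm_num)))
  refine ⟨N₀, fun N hN => (hc N).trans ?_⟩
  have hn := h2 (N + 2) (by omega)
  rw [div_lt_iff₀ (by positivity)] at hn
  have h4 : (2 : ℝ) ^ (N + 2) = 2 ^ N * 4 := by
    rw [pow_add]
    norm_num
  rw [h4] at hn
  have h5 : (((N + 2) ^ c : ℕ) : ℝ) < ((2 ^ N : ℕ) : ℝ) := by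
    push_cast
    push_cast at hn
    linarith
  exact (Nat.cast_lt.1 h5).le

theorem growth (cg cu : ℕ) : ∃ N₁, ∀ N ≥ N₁,
    2 * (pb cu N + 40 * 2 ^ (N / (2 * cg + 2)) + 9 * N + 10 +
      pb cg (2 * N + 2 ^ (N / (2 * cg + 2)) + 1)) + 2 ≤ 2 ^ N := by
  have hP : PB fun N => (2 * (pb cu N + 40 + 9 * N + 10 + (2 * N + 4) ^ cg) + 2) ^ 2 := by
    have h2 : PB fun n : ℕ => n := PB.id
    exact ((((PB.const 2).mul (((((PB.pb cu).add (PB.const 40)).add ((PB.const 9).mul h2)).add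
      (PB.const 10)).add ((((PB.const 2).mul h2).add (PB.const 4)).pow cg))).add
      (PB.const 2)).pow 2)
  obtain ⟨N₁, hN₁⟩ := PB_eventually hP
  refine ⟨N₁, fun N hN => ?_⟩
  have h1 := hN₁ N hN
  set a := 2 ^ (N / (2 * cg + 2)) with ha
  have ha1 : 1 ≤ a := Nat.one_le_two_pow
  set B := a ^ (cg + 1) with hB
  have hB1 : 1 ≤ B := Nat.one_le_pow _ _ ha1
  have haB : a ≤ B := by
    rw [hB, pow_succ]
    exact Nat.le_mul_of_pos_left a (Nat.pos_of_ne_zero (pow_ne_zero _ (by omega)))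
  have haB' : a ^ cg ≤ B := Nat.pow_le_pow_right ha1 (Nat.le_succ cg)
  have hBB : B ^ 2 ≤ 2 ^ N := by
    rw [hB, ha, ← pow_mul, ← pow_mul]
    refine Nat.pow_le_pow_right (by norm_num) ?_
    have h3 : N / (2 * cg + 2) * (2 * cg + 2) ≤ N := Nat.div_mul_le_self _ _
    calc N / (2 * cg + 2) * ((cg + 1) * 2) = N / (2 * cg + 2) * (2 * cg + 2) := by ring
      _ ≤ N := h3
  have h4 : pb cg (2 * N + a + 1) ≤ (2 * N + 4) ^ cg * B := by
    unfold pb
    have h5 : 2 * N + a + 1 + 2 ≤ (2 * N + 4) * a := by nlinarith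
    calc (2 * N + a + 1 + 2) ^ cg ≤ ((2 * N + 4) * a) ^ cg := Nat.pow_le_pow_left h5 _
      _ = (2 * N + 4) ^ cg * a ^ cg := mul_pow _ _ _
      _ ≤ _ := Nat.mul_le_mul_left _ haB'
  set P := 2 * (pb cu N + 40 + 9 * N + 10 + (2 * N + 4) ^ cg) + 2 with hPdef
  have h6 : 2 * (pb cu N + 40 * a + 9 * N + 10 + pb cg (2 * N + a + 1)) + 2 ≤ P * B := by
    have h7 : pb cu N ≤ pb cu N * B := Nat.le_mul_of_pos_right _ hB1
    have h8 : 40 * a ≤ 40 * B := Nat.mul_le_mul_left _ haB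
    have h9 : 9 * N ≤ 9 * N * B := Nat.le_mul_of_pos_right _ hB1
    have h10 : P * B = 2 * (pb cu N * B + 40 * B + 9 * N * B + 10 * B + (2 * N + 4) ^ cg * B) +
        2 * B := by rw [hPdef]; ring
    rw [h10]
    omega
  refine h6.trans ?_
  have h11 : (P * B) ^ 2 ≤ (2 ^ N) ^ 2 := by
    rw [mul_pow]
    calc P ^ 2 * B ^ 2 ≤ 2 ^ N * 2 ^ N := Nat.mul_le_mul h1 hBB
      _ = (2 ^ N) ^ 2 := by ring
  exact (Nat.pow_le_pow_iff_left (by norm_num)).1 h11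

theorem diag_word (p : Prog) : ∃ N₀, ∀ N ≥ N₀, ∀ T : ℕ, 2 * T + 2 ≤ 2 ^ N →
    ∃ w : Word, w.length = N ∧ ((∀ r, HaltsWithin ∅ p w r T) →
      (w ∈ Lg ↔ ∃ r : Word, r.length ≤ 2 ^ N ∧ Accepts ∅ p w r)) := by
  obtain ⟨N₀, hN₀⟩ := B.stComp p
  refine ⟨N₀, fun N hN T hT => ?_⟩
  obtain ⟨w, hw, hacc⟩ := hN₀ N hN
  refine ⟨w, hw, fun h1 => ?_⟩
  have key : ∀ r, AccW w (start w r) (2 ^ w.length - 1) ↔ Accepts ∅ p w r := by
    intro r
    obtain ⟨t, s, he, ht⟩ := h1 r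
    rw [hacc _ _ _ _ he (by rw [hw]; omega)]
    constructor
    · intro h
      exact ⟨t, s, he, h⟩
    · rintro ⟨t', s', he', h'⟩
      obtain ⟨-, rfl⟩ := he.det he'
      exact h'
  rw [hw] at key
  simp only [Lg, Set.mem_setOf_eq, hw, key]

/-- **unsolvability has no certificates of subexponential length** -/
theorem no_short (red : Red Lg) : ∃ c : ℕ, 0 < c ∧ ∀ V : List Bool → List Bool, PolyTime V →
    (∀ F : Poly, (toMv F).totalDegree ≤ 4 → ∀ r, V (pairW (codeP F) r) = [true] → ¬ HasZero F) →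
    ∀ K : ℕ, ∃ F : Poly, (toMv F).totalDegree ≤ 4 ∧ ¬ HasZero F ∧
      ∀ r, V (pairW (codeP F) r) = [true] → ∀ m, m ^ c ≤ (codeP F).length → K * 2 ^ m < r.length := by
  obtain ⟨f, hf, hd, hfL⟩ := red
  obtain ⟨T, hT, hT1, hfT⟩ := hf.length_le
  obtain ⟨c₀, hc₀⟩ := hT.exists_pb
  refine ⟨2 * (c₀ + 1), by omega, fun V hV hsound K => ?_⟩
  by_contra hcon
  push Not at hcon
  rw [polyTime_iff] at hV
  have hg : FP ∅ (fun z : Word => V (pr (codeP (f (fstW z))) (sndW z))) :=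
    hV.comp ((hf.comp FP.fst).pair FP.snd)
  obtain ⟨cg, hcg⟩ := Vale.Agent.P027.N.D.E.exists_prog_exp (fp_test hg true false)
  obtain ⟨u, hu, hu'⟩ := Vale.Agent.P027.N.D.E.exists_div (2 * cg + 2)
  obtain ⟨p, cu, hp⟩ := hcg u hu
  obtain ⟨N₁, hN₁⟩ := growth cg cu
  obtain ⟨N₀, hN₀⟩ := diag_word p
  set k := 2 * cg + 2 with hk
  set N := max N₀ (max N₁ (2 * (K + 1) * k + 2 * k * k + 4)) with hN
  have hNN₀ : N ≥ N₀ := le_max_left _ _
  have hNN₁ : N ≥ N₁ := (le_max_left _ _).trans (le_max_right _ _)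
  have hNK : 2 * (K + 1) * k + 2 * k * k + 4 ≤ N := (le_max_right _ _).trans (le_max_right _ _)
  obtain ⟨w, hw, h1⟩ := hN₀ N hNN₀ _ (hN₁ N hNN₁)
  have hlen : (u w).length = N / k := by rw [hu', hw]
  have h2 : ∀ r, ∃ s, Runs ∅ p (start w r) (pb cu N + 40 * 2 ^ (N / k) + 9 * N + 10 +
      pb cg (2 * N + 2 ^ (N / k) + 1)) s ∧
      s 0 = if V (pr (codeP (f w)) (r.take (2 ^ (N / k)))) = [true] then [true] else [false] := by
    intro r
    obtain ⟨s, h3, h4⟩ := hp w r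
    rw [hlen, hw] at h3
    rw [hlen] at h4
    refine ⟨s, h3, ?_⟩
    rw [h4, fstW_pr, sndW_pr]
  have hacc : ∀ r, Accepts ∅ p w r ↔ V (pr (codeP (f w)) (r.take (2 ^ (N / k)))) = [true] := by
    intro r
    obtain ⟨s, ⟨t, ht, he⟩, hs⟩ := h2 r
    constructor
    · rintro ⟨t', s', he', h'⟩
      obtain ⟨-, rfl⟩ := he.det he'
      rw [hs] at h'
      by_contra h5
      rw [if_neg h5] at h'
      simp at h'
    · intro h5
      exact ⟨t, s, he, by rw [hs, if_pos h5]; rfl⟩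
  have h3 := h1 fun r => by
    obtain ⟨s, ⟨t, ht, he⟩, hs⟩ := h2 r
    exact ⟨t, s, he, ht⟩
  by_cases hwL : w ∈ Lg
  · obtain ⟨r, -, hr⟩ := h3.1 hwL
    rw [hacc, ← pairW_eq] at hr
    exact hsound (f w) (hd w) _ hr ((hfL w).1 hwL)
  · obtain ⟨r, hr, m, hm, hrm⟩ := hcon (f w) (hd w) fun h => hwL ((hfL w).2 h)
    -- the bound on `m`
    have h4 : m ^ 2 ≤ N + 2 := by
      have h5 : (m ^ 2) ^ (c₀ + 1) ≤ (N + 2) ^ (c₀ + 1) := by
        rw [← pow_mul]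
        refine (hm.trans (hfT w)).trans ((hc₀ _).trans ?_)
        rw [hw]
        exact Nat.pow_le_pow_right (by omega) (Nat.le_succ _)
      exact (Nat.pow_le_pow_iff_left (by omega)).1 h5
    have h6 : (K + m) * k ≤ N := by
      by_cases h7 : m ≤ 2 * k
      · nlinarith
      · push Not at h7
        nlinarith
    have h8 : K + m ≤ N / k := (Nat.le_div_iff_mul_le (by omega)).2 h6
    have h9 : K * 2 ^ m ≤ 2 ^ (N / k) := by
      calc K * 2 ^ m ≤ 2 ^ K * 2 ^ m := Nat.mul_le_mul_right _ (Nat.lt_two_pow_self).le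
        _ = 2 ^ (K + m) := (pow_add _ _ _).symm
        _ ≤ _ := Nat.pow_le_pow_right (by norm_num) h8
    have h10 : r.length ≤ 2 ^ (N / k) := hrm.trans h9
    refine hwL (h3.2 ⟨r, h10.trans (Nat.pow_le_pow_right (by norm_num) (Nat.div_le_self _ _)), ?_⟩)
    rw [hacc, List.take_of_length_le h10, ← pairW_eq]
    exact hr

end Vale.Agent.P027.N.D
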