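import Vale.Agent.P027.H847.D.Hard
import Vale.Agent.Lib.PolyTime.NatArith2

/-! A simulator of the machines coded by words, in the polynomial time calculus. -/

set_option linter.all false

namespace Vale.Agent.P027.N.D.Z

open Vale.Agent.Lib.PolyTime Function Vale.Agent.P027.N.D.B Vale.Agent.P027.N.D.G

/-- configurations: the state and the stacks -/
abbrev Cf : Type := ℕ × List (List Bool)

/-- the new stacks -/
def newS (w : Word) (S : List (List Bool)) (k o : ℕ) : List (List Bool) :=
  (List.range w.length).map fun j => bif decide (j = k) then opr o (S.getD k []) else S.getD j []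

/-- one step of the simulator, the stack used is `k` -/
def ustep2 (w : Word) (c : Cf) (k : ℕ) : Cf :=
  match (List.range (4 * w.length)).find?
      (fun z => tab w (4 * topc (c.2.getD k []) + z % 4) c.1 (z / 4)) with
  | none => c
  | some z => (z / 4, newS w c.2 k (z % 4))

/-- one step of the simulator -/
def ustep (w : Word) (c : Cf) : Cf :=
  match (List.range w.length).find? (fun k => tab w 12 c.1 k) with
  | none => c
  | some k => ustep2 w c k

/-! ### The simulator is in the calculus -/

theorem tab_pt {α : Type} [Enc α] {w : α → Raw} {c q y : α → ℕ} (hw : PT ∅ w) (hc : PT ∅ c)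
    (hq : PT ∅ q) (hy : PT ∅ y) : PT ∅ (fun a => tab (w a).w (c a) (q a) (y a)) :=
  PT.rawGetD hw (adr_pt hc hq hy)

theorem topc_pt {α : Type} [Enc α] {s : α → List Bool} (hs : PT ∅ s) :
    PT ∅ (fun a => topc (s a)) := by
  refine (PT.ifNil hs (PT.const 0) ((PT.headD hs (PT.const false)).cond (PT.const 2)
    (PT.const 1))).congr fun a => ?_
  rcases s a with _ | ⟨_ | _, l⟩ <;> rfl

theorem opr_pt {α : Type} [Enc α] {o : α → ℕ} {s : α → List Bool} (ho : PT ∅ o) (hs : PT ∅ s) :
    PT ∅ (fun a => opr (o a) (s a)) :=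
  PT.ite (PT.eqNat ho (PT.const 1)) (PT.cons (PT.const false) hs)
    (PT.ite (PT.eqNat ho (PT.const 2)) (PT.cons (PT.const true) hs)
      (PT.ite (PT.eqNat ho (PT.const 3)) (PT.tail hs) hs))

theorem raw_len_pbd {α : Type} [Enc α] {w : α → Raw} (hw : PT ∅ w) :
    PBd (fun a => (w a).w.length) := hw.pbd.mono fun a => le_rfl

theorem newS_pt {α : Type} [Enc α] {w : α → Raw} {S : α → List (List Bool)} {k o : α → ℕ}
    (hw : PT ∅ w) (hS : PT ∅ S) (hk : PT ∅ k) (ho : PT ∅ o) :
    PT ∅ (fun a => newS (w a).w (S a) (k a) (o a)) := by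
  have h1 : PT ∅ (fun p : α × ℕ => bif decide (p.2 = k p.1) then opr (o p.1) ((S p.1).getD (k p.1) [])
      else (S p.1).getD p.2 []) :=
    (PT.eqNat PT.snd' (hk.comp PT.fst')).cond
      (opr_pt (ho.comp PT.fst') (PT.getD (hS.comp PT.fst') (hk.comp PT.fst') (PT.const [])))
      (PT.getD (hS.comp PT.fst') PT.snd' (PT.const []))
  exact PT.map (l := fun a => List.range (w a).w.length) (f := fun a j => bif decide (j = k a) then
    opr (o a) ((S a).getD (k a) []) else (S a).getD j [])
    (PT.range (PT.rawLength hw) (raw_len_pbd hw)) h1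

theorem ustep_pt {α : Type} [Enc α] {w : α → Raw} {c : α → Cf} (hw : PT ∅ w) (hc : PT ∅ c) :
    PT ∅ (fun a => ustep (w a).w (c a)) := by
  have h1 : PT ∅ (fun a => (List.range (w a).w.length).find? (fun k => tab (w a).w 12 (c a).1 k)) :=
    PT.find? (f := fun a k => tab (w a).w 12 (c a).1 k)
      (PT.range (PT.rawLength hw) (raw_len_pbd hw))
      (tab_pt (hw.comp PT.fst') (PT.const 12) (hc.comp PT.fst').fst PT.snd')
  -- inside the first match
  have hw1 : PT ∅ (fun p : α × ℕ => w p.1) := hw.comp PT.fst'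
  have hc1 : PT ∅ (fun p : α × ℕ => c p.1) := hc.comp PT.fst'
  have h2 : PT ∅ (fun p : α × ℕ => (List.range (4 * (w p.1).w.length)).find? (fun z =>
      tab (w p.1).w (4 * topc ((c p.1).2.getD p.2 []) + z % 4) (c p.1).1 (z / 4))) := by
    refine PT.find? (f := fun (p : α × ℕ) z =>
      tab (w p.1).w (4 * topc ((c p.1).2.getD p.2 []) + z % 4) (c p.1).1 (z / 4)) ?_ ?_
    · exact PT.range (PT.mul (PT.const 4) (PT.rawLength hw1))
        ((PBd.const 4).mul (raw_len_pbd hw1))
    · refine tab_pt (hw1.comp PT.fst') (PT.add (PT.mul (PT.const 4) (topc_pt (PT.getD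
        (hc1.comp PT.fst').snd (PT.snd'.comp PT.fst') (PT.const [])))) (PT.mod PT.snd'
        (PT.const 4))) (hc1.comp PT.fst').fst (PT.div PT.snd' (PT.const 4))
  have h3 : PT ∅ (fun p : (α × ℕ) × ℕ =>
      (p.2 / 4, newS (w p.1.1).w (c p.1.1).2 p.1.2 (p.2 % 4))) :=
    (PT.div PT.snd' (PT.const 4)).pair (newS_pt (hw1.comp PT.fst') (hc1.comp PT.fst').snd
      (PT.snd'.comp PT.fst') (PT.mod PT.snd' (PT.const 4)))
  have h4 : PT ∅ (fun p : α × ℕ => ustep2 (w p.1).w (c p.1) p.2) := by
    refine (PT.optCase h2 hc1 (g := fun (p : α × ℕ) z =>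
      ((z / 4, newS (w p.1).w (c p.1).2 p.2 (z % 4)) : Cf)) h3).congr fun p => ?_
    unfold ustep2
    cases (List.range (4 * (w p.1).w.length)).find? (fun z =>
      tab (w p.1).w (4 * topc ((c p.1).2.getD p.2 []) + z % 4) (c p.1).1 (z / 4)) <;> rfl
  refine (PT.optCase h1 hc (g := fun a k => ustep2 (w a).w (c a) k) h4).congr fun a => ?_
  unfold ustep
  cases (List.range (w a).w.length).find? (fun k => tab (w a).w 12 (c a).1 k) <;> rfl

/-! ### Sizes -/

theorem esize_bools (l : List Bool) : esize l = 3 * l.length := by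
  rw [esize_list]
  induction l with
  | nil => rfl
  | cons b l ih =>
    rw [List.map_cons, List.sum_cons, ih, List.length_cons, esize_bool]
    ring

/-- bounds for a configuration -/
structure Inv (w : Word) (L : ℕ) (c : Cf) : Prop where
  st : c.1 ≤ w.length
  len : c.2.length ≤ w.length
  stk : ∀ j, (c.2.getD j []).length ≤ L

theorem Inv.mono {w : Word} {L L' : ℕ} {c : Cf} (h : Inv w L c) (hL : L ≤ L') : Inv w L' c :=
  ⟨h.st, h.len, fun j => (h.stk j).trans hL⟩

theorem length_opr_le (o : ℕ) (s : Word) : (opr o s).length ≤ s.length + 1 := by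
  unfold opr
  split_ifs <;> simp
  omega

theorem getD_newS (w : Word) (S : List (List Bool)) (k o j : ℕ) (hj : j < w.length) :
    (newS w S k o).getD j [] = bif decide (j = k) then opr o (S.getD k []) else S.getD j [] := by
  unfold newS
  rw [List.getD_eq_getElem?_getD, List.getElem?_map, List.getElem?_range hj]
  rfl

theorem getD_newS' (w : Word) (S : List (List Bool)) (k o j : ℕ) (hj : w.length ≤ j) :
    (newS w S k o).getD j [] = [] := by
  unfold newS
  rw [List.getD_eq_default]
  simpa using hj

theorem Inv.ustep2 {w : Word} {L : ℕ} {c : Cf} (h : Inv w L c) (k : ℕ) :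
    Inv w (L + 1) (ustep2 w c k) := by
  unfold Z.ustep2
  split
  · exact h.mono (by omega)
  · rename_i z hz
    have h1 : z < 4 * w.length := by
      have := List.mem_of_find?_eq_some hz
      simpa using this
    refine ⟨?_, ?_, fun j => ?_⟩
    · show z / 4 ≤ _
      omega
    · simp [newS]
    · show ((newS w c.2 k (z % 4)).getD j []).length ≤ L + 1
      rcases Nat.lt_or_ge j w.length with hj | hj
      · rw [getD_newS _ _ _ _ _ hj]
        cases decide (j = k)
        · exact (h.stk j).trans (by omega)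
        · exact (length_opr_le _ _).trans (by have := h.stk k; omega)
      · rw [getD_newS' _ _ _ _ _ hj]
        simp

theorem Inv.ustep {w : Word} {L : ℕ} {c : Cf} (h : Inv w L c) : Inv w (L + 1) (ustep w c) := by
  unfold Z.ustep
  split
  · exact h.mono (by omega)
  · exact h.ustep2 _

theorem Inv.iter {w : Word} {L : ℕ} {c : Cf} (h : Inv w L c) (n : ℕ) :
    Inv w (L + n) ((Z.ustep w)^[n] c) := by
  induction n with
  | zero => exact h
  | succ n ih =>
    rw [iterate_succ_apply']
    exact ih.ustep

theorem Inv.size {w : Word} {L : ℕ} {c : Cf} (h : Inv w L c) :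
    esize c ≤ 2 * w.length + w.length * (6 * L + 1) + 1 := by
  obtain ⟨q, S⟩ := c
  rw [esize_pair]
  have h1 : esize q ≤ w.length := (esize_nat_le_self q).trans h.st
  have h2 : esize S ≤ S.length * (2 * (3 * L) + 1) := by
    refine esize_list_le fun l hl => ?_
    rw [esize_bools]
    obtain ⟨j, hj, rfl⟩ := List.mem_iff_getElem.1 hl
    have h3 := h.stk j
    simp only at h3
    rw [List.getD_eq_getElem _ _ hj] at h3
    omega
  have h3 : S.length * (2 * (3 * L) + 1) ≤ w.length * (6 * L + 1) := by
    refine Nat.mul_le_mul h.len ?_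
    omega
  omega

/-- the simulator in the calculus -/
theorem usim_pt {α : Type} [Enc α] {w : α → Raw} {c : α → Cf} {k : α → ℕ} {L : α → ℕ}
    (hw : PT ∅ w) (hc : PT ∅ c) (hk : PT ∅ k) (hkb : PBd k) (hL : PBd L)
    (hinv : ∀ a, Inv (w a).w (L a) (c a)) : PT ∅ (fun a => (ustep (w a).w)^[k a] (c a)) := by
  have hb : PBd (fun a => 2 * (w a).w.length + (w a).w.length * (6 * (L a + k a) + 1) + 1) := by
    have h1 := raw_len_pbd hw
    exact ((((PBd.const 2).mul h1).add (h1.mul (((PBd.const 6).mul (hL.add hkb)).add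
      (PBd.const 1)))).add (PBd.const 1))
  refine PT.iterate' (step := fun a => ustep (w a).w) hk hkb hc
    (ustep_pt (hw.comp PT.fst') PT.snd') hb fun a j hj => ?_
  exact (((hinv a).iter j).mono (Nat.add_le_add_left hj _)).size

/-! ### Correctness -/

/-- the list of stacks represents the memory -/
def Rep (w : Word) (S : List (List Bool)) (s : ℕ → Word) : Prop :=
  (∀ j, S.getD j [] = s j) ∧ ∀ j, w.length ≤ j → s j = []

theorem find_unique {n k : ℕ} {P : ℕ → Bool} (hk : k < n) (hP : ∀ j, P j = true ↔ j = k) :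
    (List.range n).find? P = some k := by
  rcases h : (List.range n).find? P with _ | j
  · rw [List.find?_eq_none] at h
    exact absurd ((hP k).2 rfl) (h k (List.mem_range.2 hk))
  · rw [(hP j).1 (List.find?_some h)]

theorem tab_lt {w : Word} {c q y : ℕ} (h : tab w c q y = true) : q < w.length ∧ y < w.length := by
  unfold tab at h
  have h1 : adr c q y < w.length := by
    by_contra h2
    rw [List.getD_eq_default _ _ (not_lt.1 h2)] at h
    simp at h
  unfold adr at h1
  constructor
  · exact lt_of_le_of_lt (Nat.le_add_left _ _) h1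
  · nlinarith

theorem ustep_eq {σ : Type} {ins : σ → ℕ × (ℕ → ℕ × σ)} {R : Set σ} {num : σ → ℕ} {w : Word}
    (h : TabOf ins R num w) {a : σ} (ha : a ∈ R) {s : ℕ → Word} {S : List (List Bool)}
    (hS : Rep w S s) : ∃ S', ustep w (num a, S) = (num (gstp ins (a, s)).1, S') ∧
      Rep w S' (gstp ins (a, s)).2 := by
  set k := (ins a).1 with hk
  set τ := topc (s k) with hτ
  set o := ((ins a).2 τ).1 with ho
  set y := num ((ins a).2 τ).2 with hy
  have hkt : tab w 12 (num a) k = true := (tab_stack h ha k).2 rfl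
  have hkl := (tab_lt hkt).2
  have hyt : tab w (4 * τ + o) (num a) y = true :=
    (tab_next h ha (topc_lt _) (h.op_lt _ ha _) _).2 ⟨rfl, rfl⟩
  have hyl := (tab_lt hyt).2
  have ho4 : o < 4 := h.op_lt _ ha _
  have h1 : (List.range w.length).find? (fun k => tab w 12 (num a) k) = some k :=
    find_unique hkl fun j => tab_stack h ha j
  have h2 : (List.range (4 * w.length)).find? (fun z => tab w (4 * topc (S.getD k []) + z % 4)
      (num a) (z / 4)) = some (4 * y + o) := by
    refine find_unique (by omega) fun z => ?_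
    rw [hS.1 k, tab_next h ha (topc_lt _) (Nat.mod_lt _ (by norm_num))]
    constructor
    · rintro ⟨e1, e2⟩
      rw [← ho] at e1
      rw [← hy] at e2
      omega
    · rintro rfl
      refine ⟨?_, ?_⟩
      · show (4 * y + o) % 4 = o
        omega
      · show (4 * y + o) / 4 = y
        omega
  refine ⟨newS w S k o, ?_, ?_⟩
  · unfold ustep
    simp only [h1]
    unfold ustep2
    simp only [h2]
    have e1 : (4 * y + o) / 4 = y := by omega
    have e2 : (4 * y + o) % 4 = o := by omega
    rw [e1, e2]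
    rfl
  · have hg : (gstp ins (a, s)).2 = update s k (opr o (s k)) := rfl
    rw [hg]
    constructor
    · intro j
      rcases Nat.lt_or_ge j w.length with hj | hj
      · rw [getD_newS _ _ _ _ _ hj]
        rw [hS.1 k, hS.1 j]
        rcases eq_or_ne j k with rfl | hjk
        · simp
        · simp [hjk]
      · rw [getD_newS' _ _ _ _ _ hj, update_of_ne (by omega), hS.2 j hj]
    · intro j hj
      rw [update_of_ne (by omega), hS.2 j hj]

theorem usim_eq {σ : Type} {ins : σ → ℕ × (ℕ → ℕ × σ)} {R : Set σ} {num : σ → ℕ} {w : Word}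
    (h : TabOf ins R num w) {a : σ} (ha : a ∈ R) {s : ℕ → Word} {S : List (List Bool)}
    (hS : Rep w S s) (n : ℕ) : ((ustep w)^[n] (num a, S)).1 = num ((gstp ins)^[n] (a, s)).1 := by
  suffices h1 : ∃ S', (ustep w)^[n] (num a, S) = (num ((gstp ins)^[n] (a, s)).1, S') ∧
      Rep w S' ((gstp ins)^[n] (a, s)).2 by
    obtain ⟨S', e, -⟩ := h1
    rw [e]
  induction n with
  | zero => exact ⟨S, rfl, hS⟩
  | succ n ih =>
    obtain ⟨S', e, hS'⟩ := ih
    rw [iterate_succ_apply', e, iterate_succ_apply']
    exact ustep_eq h (iterate_mem h ha n) hS'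

end Vale.Agent.P027.N.D.Z
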