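import Vale.Agent.P027.H847.D.Usim
import Vale.Agent.P027.H847.D.Co
import Vale.Agent.P027.H847.D.Sub

/-! Certificates for solvability are long: the language of the lazy diagonalisation. -/

set_option linter.all false

namespace Vale.Agent.P027.N.D.Z

open Vale.Agent.Lib.PolyTime Function Vale.Agent.P027.N.D.B Vale.Agent.P027.N.D.G

/-! ### Tables of programs -/

theorem exists_table (p : Prog) : ∃ N₀ : ℕ, ∀ N ≥ N₀, ∃ (w : Word) (num : S → ℕ), w.length = N ∧
    TabOf instr (RS p) num w ∧ num (.run [p]) = 0 ∧ num .acc = 1 := by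
  classical
  obtain ⟨num, h0, h1, h2, hinj⟩ := exists_num p
  let AD : Set ℕ := ((fun a => adr 12 (num a) (instr a).1) '' RS p) ∪
    ((fun z : S × ℕ => adr (4 * z.2 + ((instr z.1).2 z.2).1) (num z.1)
      (num ((instr z.1).2 z.2).2)) '' (RS p ×ˢ Set.Iio 3))
  have hfin : AD.Finite :=
    ((RS_finite p).image _).union (((RS_finite p).prod (Set.finite_Iio 3)).image _)
  obtain ⟨B, hB⟩ := hfin.bddAbove
  refine ⟨B + 1, fun N hN => ⟨(List.range N).map fun a => decide (a ∈ AD), num, by simp, ?_, h0,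
    h1⟩⟩
  refine ⟨fun q hq τ => RS_closed hq τ, fun q _ τ => instr_op_lt q τ, hinj, fun c q x => ?_⟩
  have h3 : tab ((List.range N).map fun a => decide (a ∈ AD)) c q x = true ↔ adr c q x ∈ AD := by
    unfold tab
    rw [List.getD_eq_getElem?_getD, List.getElem?_map]
    by_cases h4 : adr c q x < N
    · rw [List.getElem?_range h4]
      simp
    · have h5 : adr c q x ∉ AD := fun h => h4 (by have := hB h; omega)
      rw [List.getElem?_eq_none (by simpa using h4)]
      simp [h5]
  rw [h3]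
  constructor
  · rintro (⟨a, ha, e⟩ | ⟨⟨a, τ⟩, ⟨ha, hτ⟩, e⟩)
    · exact Or.inl ⟨a, ha, e.symm⟩
    · exact Or.inr ⟨a, ha, τ, hτ, e.symm⟩
  · rintro (⟨a, ha, e⟩ | ⟨a, ha, τ, hτ, e⟩)
    · exact Or.inl ⟨a, ha, e.symm⟩
    · exact Or.inr ⟨(a, τ), ⟨ha, hτ⟩, e.symm⟩

/-! ### Acceptance in the simulator -/

/-- the stacks at the start -/
def startS (w X r : List Bool) : List (List Bool) :=
  (List.range w.length).map fun j => bif decide (j = 0) then X else bif decide (j = 1) then r else []

/-- the simulated machine `w` is in the state `1` after `m` steps on `(X, r)` -/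
def acc1 (w X r : List Bool) (m : ℕ) : Bool :=
  decide (((ustep w)^[m] (0, startS w X r)).1 = 1)

theorem startS_getD (w X r : List Bool) (j : ℕ) : (startS w X r).getD j [] =
    if j < w.length then start X r j else [] := by
  unfold startS
  split_ifs with hj
  · rw [List.getD_eq_getElem?_getD, List.getElem?_map, List.getElem?_range hj]
    rw [start_apply]
    by_cases h0 : j = 0
    · simp [h0]
    · by_cases h1 : j = 1
      · simp [h1]
      · simp [h0, h1]
  · rw [List.getD_eq_default]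
    simpa using hj

theorem rep_start {w X r : List Bool} (hw : 2 ≤ w.length) : Rep w (startS w X r) (start X r) := by
  constructor
  · intro j
    rw [startS_getD]
    split_ifs with hj
    · rfl
    · rw [start_apply, if_neg (by omega), if_neg (by omega)]
  · intro j hj
    rw [start_apply, if_neg (by omega), if_neg (by omega)]

section

variable {p : Prog} {w : Word} {num : S → ℕ} (h : TabOf instr (RS p) num w)
  (h0 : num (.run [p]) = 0) (h1 : num .acc = 1) (hw : 2 ≤ w.length)

include h h0 h1 hw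

theorem acc1_iff (X r : List Bool) (m : ℕ) : acc1 w X r m = true ↔
    (stp^[m] (.run [p], start X r)).1 = .acc := by
  unfold acc1
  rw [decide_eq_true_eq, ← h0, usim_eq h (run_mem_RS p) (rep_start hw) m, ← h1]
  constructor
  · intro he
    exact h.inj (iterate_mem h (run_mem_RS p) m) (Or.inl (Or.inl rfl)) he
  · intro he
    have he' : ((gstp instr)^[m] (.run [p], start X r)).1 = .acc := he
    rw [he']

theorem acc1_of_accepts {X r : List Bool} {T m : ℕ} (hT : HaltsWithin ∅ p X r T)
    (ha : Accepts ∅ p X r) (hm : 2 * T + 1 ≤ m) : acc1 w X r m = true := by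
  obtain ⟨t, s, he, ht⟩ := hT
  obtain ⟨t', s', he', h'⟩ := ha
  obtain ⟨-, rfl⟩ := he.det he'
  rw [acc1_iff h h0 h1 hw]
  exact (sim_full he (by omega)).2 h'

theorem accepts_of_acc1 {X r : List Bool} {T m : ℕ} (hT : HaltsWithin ∅ p X r T)
    (ha : acc1 w X r m = true) : Accepts ∅ p X r := by
  obtain ⟨t, s, he, ht⟩ := hT
  rw [acc1_iff h h0 h1 hw] at ha
  refine ⟨t, s, he, (sim_full he (m := (2 * t + 1) + m) (by omega)).1 ?_⟩
  rw [iterate_add_apply]
  have h2 : stp^[m] (.run [p], start X r) = (.acc, (stp^[m] (.run [p], start X r)).2) :=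
    Prod.ext ha rfl
  rw [h2, stp_acc]

end

/-! ### The checker of the diagonal language -/

/-- the words of the chain -/
def XW (w : Word) (i : ℕ) : Word := pr w (List.replicate i true)

/-- the checker -/
def VZ (x R : Word) : Bool :=
  bif decide ((sndW x).length < 2 ^ (fstW x).length) then
    acc1 (fstW x) (XW (fstW x) ((sndW x).length + 1)) (fstW R) (sndW R).length
  else decide (2 ^ ((sndW x).length + 1) ≤ R.length) && (List.range R.length).all fun j =>
    !(decide ((wd j).length ≤ (sndW x).length) &&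
      acc1 (fstW x) (XW (fstW x) 0) (wd j) (sndW x).length)

section

variable {α : Type} [Enc α]

theorem fstW_pt {x : α → Raw} (hx : PT ∅ x) : PT ∅ (fun a => Raw.mk (fstW (x a).w)) := by
  obtain ⟨G, hG, hG'⟩ := hx
  exact ⟨_, FP.fst.comp hG, fun a => by rw [hG']; rfl⟩

theorem sndW_pt {x : α → Raw} (hx : PT ∅ x) : PT ∅ (fun a => Raw.mk (sndW (x a).w)) := by
  obtain ⟨G, hG, hG'⟩ := hx
  exact ⟨_, FP.snd.comp hG, fun a => by rw [hG']; rfl⟩

theorem XW_pt {w : α → Raw} {i : α → ℕ} (hw : PT ∅ w) (hi : PT ∅ i) (hib : PBd i) :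
    PT ∅ (fun a => (XW (w a).w (i a) : List Bool)) := by
  obtain ⟨G, hG, hG'⟩ := hw.pair (PT.mkUn hi hib)
  have h1 : PT ∅ (fun a => Raw.mk (XW (w a).w (i a))) := ⟨G, hG, fun a => by rw [hG']; rfl⟩
  exact PT.listOfRaw h1

theorem startS_pt {w : α → Raw} {X r : α → List Bool} (hw : PT ∅ w) (hX : PT ∅ X)
    (hr : PT ∅ r) : PT ∅ (fun a => startS (w a).w (X a) (r a)) := by
  have h1 : PT ∅ (fun p : α × ℕ => bif decide (p.2 = 0) then X p.1 else
      bif decide (p.2 = 1) then r p.1 else ([] : List Bool)) :=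
    (PT.eqNat PT.snd' (PT.const 0)).cond (hX.comp PT.fst')
      ((PT.eqNat PT.snd' (PT.const 1)).cond (hr.comp PT.fst') (PT.const []))
  exact PT.map (l := fun a => List.range (w a).w.length) (f := fun a j =>
    bif decide (j = 0) then X a else bif decide (j = 1) then r a else ([] : List Bool))
    (PT.range (PT.rawLength hw) (raw_len_pbd hw)) h1

theorem bools_len_pbd {X : α → List Bool} (hX : PT ∅ X) : PBd (fun a => (X a).length) :=
  PBd.length hX

theorem acc1_pt {w : α → Raw} {X r : α → List Bool} {m : α → ℕ} (hw : PT ∅ w) (hX : PT ∅ X)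
    (hr : PT ∅ r) (hm : PT ∅ m) (hmb : PBd m) :
    PT ∅ (fun a => acc1 (w a).w (X a) (r a) (m a)) := by
  have h1 : PT ∅ (fun a => (ustep (w a).w)^[m a] (0, startS (w a).w (X a) (r a))) := by
    refine usim_pt (L := fun a => (X a).length + (r a).length) hw
      ((PT.const 0).pair (startS_pt hw hX hr)) hm hmb
      ((bools_len_pbd hX).add (bools_len_pbd hr)) fun a => ?_
    refine ⟨Nat.zero_le _, by simp [startS], fun j => ?_⟩
    show ((startS (w a).w (X a) (r a)).getD j []).length ≤ _
    rw [startS_getD]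
    split_ifs with hj
    · rw [start_apply]
      split_ifs <;> simp
    · simp
  exact PT.eqNat h1.fst (PT.const 1)

end

theorem VZ_pt : PT ∅ (fun z : Raw × Raw => VZ z.1.w z.2.w) := by
  have hx : PT ∅ (fun z : Raw × Raw => z.1) := PT.fst'
  have hR : PT ∅ (fun z : Raw × Raw => z.2) := PT.snd'
  have hw := fstW_pt hx
  have hu := sndW_pt hx
  have hi : PT ∅ (fun z : Raw × Raw => (sndW z.1.w).length) := PT.rawLength hu
  have hib : PBd (fun z : Raw × Raw => (sndW z.1.w).length) := raw_len_pbd hu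
  have hn : PT ∅ (fun z : Raw × Raw => (fstW z.1.w).length) := PT.rawLength hw
  have hnb : PBd (fun z : Raw × Raw => (fstW z.1.w).length) := raw_len_pbd hw
  have h1 : PT ∅ (fun z : Raw × Raw => decide ((sndW z.1.w).length < 2 ^ (fstW z.1.w).length)) :=
    PT.lt hi (PT.pow (PT.const 2) hn hnb)
  have h2 : PT ∅ (fun z : Raw × Raw => acc1 (fstW z.1.w) (XW (fstW z.1.w) ((sndW z.1.w).length + 1))
      (fstW z.2.w) (sndW z.2.w).length) :=
    acc1_pt hw (XW_pt hw (PT.add hi (PT.const 1)) (hib.add (PBd.const 1)))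
      (PT.listOfRaw (fstW_pt hR)) (PT.rawLength (sndW_pt hR)) (raw_len_pbd (sndW_pt hR))
  have hRl : PT ∅ (fun z : Raw × Raw => z.2.w.length) := PT.rawLength hR
  have hRb : PBd (fun z : Raw × Raw => z.2.w.length) := raw_len_pbd hR
  have h3 : PT ∅ (fun z : Raw × Raw => decide (2 ^ ((sndW z.1.w).length + 1) ≤ z.2.w.length)) :=
    PT.le (PT.pow (PT.const 2) (PT.add hi (PT.const 1)) (hib.add (PBd.const 1))) hRl
  have h4 : PT ∅ (fun z : (Raw × Raw) × ℕ => !(decide ((wd z.2).length ≤ (sndW z.1.1.w).length) &&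
      acc1 (fstW z.1.1.w) (XW (fstW z.1.1.w) 0) (wd z.2) (sndW z.1.1.w).length)) := by
    refine ((PT.le (PT.length (wd_pt PT.snd')) (hi.comp PT.fst')).and ?_).not
    exact acc1_pt (hw.comp PT.fst') ((XW_pt hw (PT.const 0) (PBd.const 0)).comp PT.fst')
      (wd_pt PT.snd') (hi.comp PT.fst') (hib.comp (A := ∅) PT.fst')
  exact h1.cond h2 (h3.and (PT.all (l := fun z : Raw × Raw => List.range z.2.w.length)
    (f := fun z j => !(decide ((wd j).length ≤ (sndW z.1.w).length) &&
      acc1 (fstW z.1.w) (XW (fstW z.1.w) 0) (wd j) (sndW z.1.w).length))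
    (PT.range hRl hRb) h4))

/-- the diagonal language -/
def LZ : Set Word := {x | ∃ R : Word, R.length ≤ 2 ^ (x.length + 3) ∧ VZ x R = true}

theorem redLZ (red : Red Lg) : Red LZ := by
  obtain ⟨G, hG, hG'⟩ := VZ_pt
  obtain ⟨f, hf, hd, hfL⟩ := red_cert red hG ((Polynomial.X : Polynomial ℕ) + 3)
  refine ⟨f, hf, hd, fun x => ?_⟩
  rw [← hfL x]
  have h1 : ∀ R, (G (pr x R)).head? = some true ↔ VZ x R = true := by
    intro R
    have h2 : G (pr x R) = [VZ x R] := hG' (Raw.mk x, Raw.mk R)
    rw [h2]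
    simp
  have h3 : ((Polynomial.X : Polynomial ℕ) + 3).eval x.length = x.length + 3 := by
    simp
  simp only [LZ, Set.mem_setOf_eq, h1, h3]

end Vale.Agent.P027.N.D.Z
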